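import Mathlib

/-!
# P142: limits of injective maps, and a power of a Cayley map that is not injective
-/

open MeasureTheory Set Metric Filter
open scoped ENNReal NNReal Topology Real ComplexConjugate

noncomputable section

namespace Vale.Agent.P142

/-- A locally Lipschitz-bounded pointwise limit of injective holomorphic maps is injective near
two points at which its derivative does not vanish. -/
theorem eq_of_limit_injOn {F : ℕ → ℂ → ℂ} {G : ℂ → ℂ} (hF : ∀ n, DifferentiableOn ℂ (F n) (ball 0 1))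
    (hinj : ∀ n, InjOn (F n) (ball 0 1))
    (hbd : ∀ ρ < (1 : ℝ), ∃ M : ℝ, ∀ n, ∀ u ∈ closedBall (0 : ℂ) ρ, ‖deriv (F n) u‖ ≤ M)
    (hlim : ∀ u ∈ ball (0 : ℂ) 1, Tendsto (fun n => F n u) atTop (𝓝 (G u)))
    {a b : ℂ} (ha : a ∈ ball (0 : ℂ) 1) (hb : b ∈ ball (0 : ℂ) 1)
    (hGa : ∃ g, g ≠ 0 ∧ HasDerivAt G g a) (hGb : ∃ g, g ≠ 0 ∧ HasDerivAt G g b)
    (hab : G a = G b) : a = b := by
  by_contra hne
  rw [mem_ball_zero_iff] at ha hb
  set ρ₁ : ℝ := min (dist a b / 3) ((1 - max ‖a‖ ‖b‖) / 2) with hρ₁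
  have hρ₁0 : 0 < ρ₁ := lt_min (by have := dist_pos.2 hne; positivity)
    (by linarith [max_lt ha hb])
  set R : ℝ := max ‖a‖ ‖b‖ + (1 - max ‖a‖ ‖b‖) / 2 with hR
  have hR1 : R < 1 := by rw [hR]; linarith [max_lt ha hb]
  have hsub : ∀ c ρ, ‖c‖ ≤ max ‖a‖ ‖b‖ → ρ ≤ ρ₁ → closedBall c ρ ⊆ closedBall (0 : ℂ) R := by
    intro c ρ hc hρ v hv
    rw [mem_closedBall_zero_iff]
    rw [mem_closedBall, dist_eq_norm] at hv
    have := norm_le_norm_add_norm_sub' v c
    have h2 : ρ₁ ≤ (1 - max ‖a‖ ‖b‖) / 2 := min_le_right _ _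
    rw [hR]
    linarith
  obtain ⟨M, hM⟩ := hbd R hR1
  have hRsub : closedBall (0 : ℂ) R ⊆ ball 0 1 := closedBall_subset_ball hR1
  have hM0 : 0 ≤ M := le_trans (norm_nonneg _) (hM 0 0
    (mem_closedBall_self (by rw [hR]; linarith [le_max_left ‖a‖ ‖b‖, norm_nonneg a, max_lt ha hb])))
  have hlipF : ∀ n, ∀ v ∈ closedBall (0 : ℂ) R, ∀ w ∈ closedBall (0 : ℂ) R,
      ‖F n w - F n v‖ ≤ M * ‖w - v‖ := fun n v hv w hw =>
    (convex_closedBall (0 : ℂ) R).norm_image_sub_le_of_norm_deriv_le
      (fun x hx => (hF n).differentiableAt (isOpen_ball.mem_nhds (hRsub hx))) (hM n) hv hw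
  have hlipG : ∀ v ∈ closedBall (0 : ℂ) R, ∀ w ∈ closedBall (0 : ℂ) R,
      ‖G w - G v‖ ≤ M * ‖w - v‖ := fun v hv w hw =>
    le_of_tendsto ((hlim w (hRsub hw)).sub (hlim v (hRsub hv))).norm
      (Eventually.of_forall fun n => hlipF n v hv w hw)
  -- for large `n`, a disc around `G c` lies in the image of a small disc around `c`
  have hcover : ∀ c : ℂ, ‖c‖ ≤ max ‖a‖ ‖b‖ → (∃ g, g ≠ 0 ∧ HasDerivAt G g c) →
      ∀ᶠ n in atTop, G c ∈ F n '' closedBall c ρ₁ := by
    intro c hc hG
    obtain ⟨g, hg, hGd⟩ := hG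
    obtain ⟨e, he, hball⟩ := Metric.eventually_nhds_iff.1
      (eventually_nhdsWithin_iff.1 (hGd.eventually_ne (c := G c) hg))
    set ρ : ℝ := min ρ₁ (e / 2) with hρ
    have hρ0 : 0 < ρ := lt_min hρ₁0 (by positivity)
    have hsub' := hsub c ρ hc (min_le_left _ _)
    have hcR : c ∈ closedBall (0 : ℂ) R := hsub' (mem_closedBall_self hρ0.le)
    have hcont : ContinuousOn (fun v => ‖G v - G c‖) (sphere c ρ) := by
      refine ContinuousOn.norm (ContinuousOn.sub ?_ continuousOn_const)
      refine (LipschitzOnWith.of_dist_le_mul (K := M.toNNReal) fun v hv w hw => ?_).continuousOn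
      rw [Real.coe_toNNReal M hM0, dist_eq_norm, dist_eq_norm]
      exact hlipG w (hsub' (sphere_subset_closedBall hw)) v (hsub' (sphere_subset_closedBall hv))
    obtain ⟨v₀, hv₀, hmin⟩ := (isCompact_sphere c ρ).exists_isMinOn
      (NormedSpace.sphere_nonempty.2 hρ0.le) hcont
    set m : ℝ := ‖G v₀ - G c‖ with hm
    have hm0 : 0 < m := by
      refine norm_pos_iff.2 (sub_ne_zero.2 (hball ?_ ?_))
      · rw [mem_sphere.1 hv₀]; linarith [min_le_right ρ₁ (e / 2)]
      · exact ne_of_mem_sphere hv₀ hρ0.ne'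
    obtain ⟨t, htsub, htfin, htcov⟩ := (isCompact_sphere c ρ).finite_cover_balls
      (e := m / (8 * (M + 1))) (by positivity)
    filter_upwards [(htfin.eventually_all).2 fun v hv =>
        (tendsto_iff_norm_sub_tendsto_zero.1 (hlim v (hRsub (hsub' (sphere_subset_closedBall
          (htsub hv)))))).eventually_le_const (show 0 < m / 8 by positivity),
      (tendsto_iff_norm_sub_tendsto_zero.1 (hlim c (hRsub hcR))).eventually_lt_const
        (show 0 < m / 8 by positivity)] with n hn hnc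
    have hlow : ∀ v ∈ sphere c ρ, m / 2 ≤ ‖F n v - F n c‖ := by
      intro v hv
      obtain ⟨w, hw, hvw⟩ := mem_iUnion₂.1 (htcov hv)
      rw [mem_ball, dist_eq_norm] at hvw
      have hMv : M * ‖v - w‖ ≤ m / 8 := by
        calc M * ‖v - w‖ ≤ (M + 1) * (m / (8 * (M + 1))) :=
              mul_le_mul (by linarith) hvw.le (norm_nonneg _) (by linarith)
          _ = m / 8 := by field_simp
      have h1 : m ≤ ‖G v - G c‖ := hmin hv
      have h2 := hlipF n w (hsub' (sphere_subset_closedBall (htsub hw))) v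
        (hsub' (sphere_subset_closedBall hv))
      have h3 := hlipG w (hsub' (sphere_subset_closedBall (htsub hw))) v
        (hsub' (sphere_subset_closedBall hv))
      have h4 := hn w hw
      have e1 : G v - G c = (F n v - F n c) + ((F n w - F n v) + (G v - G w) - (F n w - G w)
          + (F n c - G c)) := by ring
      rw [e1] at h1
      have h5 := (norm_add_le _ _).trans' h1
      have h6 := norm_add_le ((F n w - F n v) + (G v - G w) - (F n w - G w)) (F n c - G c)
      have h7 := norm_sub_le ((F n w - F n v) + (G v - G w)) (F n w - G w)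
      have h8 := norm_add_le (F n w - F n v) (G v - G w)
      rw [norm_sub_rev (F n w) (F n v)] at h8
      linarith
    have hd : DiffContOnCl ℂ (F n) (ball c ρ) := by
      refine ((hF n).mono ?_).diffContOnCl
      rw [closure_ball c hρ0.ne']
      exact hsub'.trans hRsub
    have hfreq : ∃ᶠ v in 𝓝 c, F n v ≠ F n c := by
      refine (Filter.Eventually.frequently ?_).filter_mono (nhdsWithin_le_nhds (s := {c}ᶜ))
      filter_upwards [mem_nhdsWithin_of_mem_nhds (isOpen_ball.mem_nhds (hRsub hcR)),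
        self_mem_nhdsWithin] with v hv hvc h
      exact hvc (hinj n hv (hRsub hcR) h)
    refine image_mono (closedBall_subset_closedBall (min_le_left _ _))
      (hd.ball_subset_image_closedBall hρ0 hlow hfreq ?_)
    rw [mem_ball, dist_eq_norm, norm_sub_rev]
    linarith
  obtain ⟨n, ⟨v, hv, hva⟩, w, hw, hwb⟩ :=
    ((hcover a (le_max_left _ _) hGa).and (hcover b (le_max_right _ _) hGb)).exists
  have hvw : v = w := hinj n (hRsub (hsub a ρ₁ (le_max_left _ _) le_rfl hv))
    (hRsub (hsub b ρ₁ (le_max_right _ _) le_rfl hw)) (by rw [hva, hwb, hab])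
  subst hvw
  rw [mem_closedBall, dist_comm] at hv
  rw [mem_closedBall] at hw
  have h1 := dist_triangle a v b
  have h2 : ρ₁ ≤ dist a b / 3 := min_le_left _ _
  linarith [dist_pos.2 hne]

/-- The Cayley map of the disc onto the right half plane. -/
def cay (u : ℂ) : ℂ := (1 - u) / (1 + u)

theorem one_add_ne {u : ℂ} (hu : ‖u‖ < 1) : 1 + u ≠ 0 := fun h => by
  rw [add_eq_zero_iff_neg_eq.1 h |>.symm, norm_neg, norm_one] at hu
  exact lt_irrefl _ hu

theorem one_sub_ne {u : ℂ} (hu : ‖u‖ < 1) : 1 - u ≠ 0 := fun h => by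
  rw [← sub_eq_zero.1 h, norm_one] at hu
  exact lt_irrefl _ hu

theorem cay_re_pos {u : ℂ} (hu : ‖u‖ < 1) : 0 < (cay u).re := by
  have h1 : 0 < Complex.normSq (1 + u) := Complex.normSq_pos.2 (one_add_ne hu)
  have h2 : u.re * u.re + u.im * u.im < 1 := by
    rw [← Complex.normSq_apply, Complex.normSq_eq_norm_sq]
    nlinarith [norm_nonneg u]
  rw [cay, Complex.div_re, ← add_div]
  refine div_pos ?_ h1
  simp only [Complex.sub_re, Complex.sub_im, Complex.one_re, Complex.one_im, Complex.add_re,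
    Complex.add_im]
  nlinarith

theorem norm_cay_lt {ξ : ℂ} (hξ : 0 < ξ.re) : ‖cay ξ‖ < 1 := by
  have hne : 1 + ξ ≠ 0 := fun h => by
    have := congrArg Complex.re h
    simp at this
    linarith
  rw [cay, norm_div, div_lt_one (norm_pos_iff.2 hne)]
  refine (sq_lt_sq₀ (norm_nonneg _) (norm_nonneg _)).1 ?_
  rw [Complex.sq_norm, Complex.sq_norm, Complex.normSq_apply, Complex.normSq_apply]
  simp only [Complex.sub_re, Complex.sub_im, Complex.one_re, Complex.one_im, Complex.add_re,
    Complex.add_im]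
  nlinarith

theorem cay_cay {ξ : ℂ} (hξ : 1 + ξ ≠ 0) : cay (cay ξ) = ξ := by
  rw [cay, cay, one_sub_div hξ, one_add_div hξ, div_div_div_cancel_right₀ hξ,
    show (1 + ξ - (1 - ξ)) = 2 * ξ by ring, show (1 + ξ + (1 - ξ)) = (2 : ℂ) by ring,
    mul_div_cancel_left₀ _ (two_ne_zero)]

/-- The primitive vanishing at `0` of `exp (a log cay) / (1 + u)^2`, with `p = a + 1`. -/
def modelMap (p : ℝ) (u : ℂ) : ℂ :=
  -(Complex.exp ((p : ℂ) * Complex.log (cay u)) - 1) / (2 * p)

theorem hasDerivAt_cay {u : ℂ} (hu : ‖u‖ < 1) :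
    HasDerivAt cay (-2 / (1 + u) ^ 2) u := by
  refine ((((hasDerivAt_id u).const_sub 1).div ((hasDerivAt_id u).const_add 1)
    (one_add_ne hu))).congr_deriv ?_
  simp only [id_eq]
  ring

theorem hasDerivAt_modelMap {a : ℝ} (ha : a + 1 ≠ 0) {u : ℂ} (hu : ‖u‖ < 1) :
    HasDerivAt (modelMap (a + 1))
      (Complex.exp ((a : ℂ) * Complex.log (cay u)) / (1 + u) ^ 2) u := by
  have hc := (hasDerivAt_cay hu).clog (Or.inl (cay_re_pos hu))
  have hne : cay u ≠ 0 := fun h => by
    have := cay_re_pos hu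
    rw [h] at this
    simp at this
  have hp : ((a : ℂ) + 1) ≠ 0 := by exact_mod_cast ha
  refine ((((hc.const_mul ((a + 1 : ℝ) : ℂ)).cexp.sub_const 1).neg).div_const _).congr_deriv ?_
  push_cast
  rw [add_mul (a : ℂ) 1 (Complex.log (cay u)), one_mul, Complex.exp_add, Complex.exp_log hne]
  have := one_add_ne hu
  field_simp

/-- If `|p| > 2` the model map is not injective. -/
theorem modelMap_not_injective {p : ℝ} (hp : 2 < |p|) :
    ∃ u v : ℂ, ‖u‖ < 1 ∧ ‖v‖ < 1 ∧ u ≠ v ∧ modelMap p u = modelMap p v := by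
  set θ : ℝ := π / |p| with hθ
  have hp0 : 0 < |p| := by linarith
  have hθ0 : 0 < θ := div_pos Real.pi_pos hp0
  have hθ2 : θ < π / 2 := div_lt_div_of_pos_left Real.pi_pos two_pos hp
  have hre : ∀ φ : ℝ, φ = θ ∨ φ = -θ → 0 < (Complex.exp (φ * Complex.I)).re := by
    intro φ hφ
    rw [Complex.exp_ofReal_mul_I_re]
    refine Real.cos_pos_of_mem_Ioo ?_
    rcases hφ with rfl | rfl <;> constructor <;> linarith
  have hadd : ∀ φ : ℝ, φ = θ ∨ φ = -θ → 1 + Complex.exp (φ * Complex.I) ≠ 0 := fun φ hφ h => by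
    have h' := congrArg Complex.re h
    simp only [Complex.add_re, Complex.one_re, Complex.zero_re] at h'
    linarith [hre φ hφ]
  have hval : ∀ φ : ℝ, φ = θ ∨ φ = -θ →
      Complex.exp ((p : ℂ) * Complex.log (cay (cay (Complex.exp (φ * Complex.I))))) = -1 := by
    intro φ hφ
    rw [cay_cay (hadd φ hφ), Complex.log_exp (by
        rcases hφ with rfl | rfl <;>
          simp only [Complex.mul_im, Complex.ofReal_re, Complex.I_im, Complex.ofReal_im,
            Complex.I_re, mul_one, mul_zero, add_zero] <;>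
          linarith [Real.pi_pos]) (by
        rcases hφ with rfl | rfl <;>
          simp only [Complex.mul_im, Complex.ofReal_re, Complex.I_im, Complex.ofReal_im,
            Complex.I_re, mul_one, mul_zero, add_zero] <;>
          linarith [Real.pi_pos]), ← mul_assoc, ← Complex.ofReal_mul]
    have : p * φ = π ∨ p * φ = -π := by
      rcases le_total 0 p with h | h
      · have : p * θ = π := by
          have hne : p ≠ 0 := fun h0 => by rw [h0, abs_zero] at hp0; exact lt_irrefl _ hp0
          rw [hθ, abs_of_nonneg h]; field_simp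
        rcases hφ with rfl | rfl
        · exact Or.inl this
        · exact Or.inr (by rw [mul_neg, this])
      · have : p * θ = -π := by
          have hne : p ≠ 0 := fun h0 => by rw [h0, abs_zero] at hp0; exact lt_irrefl _ hp0
          rw [hθ, abs_of_nonpos h]; field_simp
        rcases hφ with rfl | rfl
        · exact Or.inr this
        · exact Or.inl (by rw [mul_neg, this, neg_neg])
    rcases this with h | h <;> rw [h]
    · exact Complex.exp_pi_mul_I
    · rw [Complex.ofReal_neg, neg_mul, Complex.exp_neg, Complex.exp_pi_mul_I]; norm_num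
  refine ⟨cay (Complex.exp (θ * Complex.I)), cay (Complex.exp ((-θ : ℝ) * Complex.I)),
    norm_cay_lt (hre θ (Or.inl rfl)), norm_cay_lt (hre (-θ) (Or.inr rfl)), fun h => ?_, ?_⟩
  · have h' := congrArg cay h
    rw [cay_cay (hadd θ (Or.inl rfl)), cay_cay (hadd (-θ) (Or.inr rfl))] at h'
    have him := congrArg Complex.im h'
    rw [Complex.exp_ofReal_mul_I_im, Complex.exp_ofReal_mul_I_im, Real.sin_neg] at him
    linarith [Real.sin_pos_of_pos_of_lt_pi hθ0 (by linarith [Real.pi_pos])]
  · rw [modelMap, modelMap, hval θ (Or.inl rfl), hval (-θ) (Or.inr rfl)]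

end Vale.Agent.P142
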