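import Vale.Agent.P142.Rep
import Vale.Agent.P142.NonInj

/-!
# P142: univalence bounds every atom of the representing measure
-/

open MeasureTheory Set Metric Filter
open scoped ENNReal NNReal Topology Real ComplexConjugate

noncomputable section

namespace Vale.Agent.P142

/-- The disc automorphism sending `0` to `r`. -/
def mob (r : ℝ) (u : ℂ) : ℂ := ((r : ℂ) + u) / (1 + r * u)

theorem norm_mul_lt {r : ℝ} (hr : r ∈ Ico (0 : ℝ) 1) {u : ℂ} (hu : ‖u‖ < 1) :
    ‖(r : ℂ) * u‖ < 1 := by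
  rw [norm_mul, Complex.norm_real, Real.norm_eq_abs, abs_of_nonneg hr.1]
  calc r * ‖u‖ ≤ 1 * ‖u‖ := mul_le_mul_of_nonneg_right hr.2.le (norm_nonneg _)
    _ < 1 := by rwa [one_mul]

theorem mob_den_ne {r : ℝ} (hr : r ∈ Ico (0 : ℝ) 1) {u : ℂ} (hu : ‖u‖ < 1) : 1 + (r : ℂ) * u ≠ 0 :=
  one_add_ne (norm_mul_lt hr hu)

theorem mob_sub {r : ℝ} (hr : r ∈ Ico (0 : ℝ) 1) {u : ℂ} (hu : ‖u‖ < 1) :
    mob r u - r = u * (1 - (r : ℂ) ^ 2) / (1 + r * u) := by
  rw [mob, eq_div_iff (mob_den_ne hr hu), sub_mul, div_mul_cancel₀ _ (mob_den_ne hr hu)]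
  ring

theorem one_sub_mob {r : ℝ} (hr : r ∈ Ico (0 : ℝ) 1) {u : ℂ} (hu : ‖u‖ < 1) :
    1 - mob r u = ((1 - r : ℝ) : ℂ) * ((1 - u) / (1 + r * u)) := by
  rw [mob, one_sub_div (mob_den_ne hr hu), mul_div_assoc']
  push_cast
  congr 1
  ring

theorem sq_norm_mob {r : ℝ} (hr : r ∈ Ico (0 : ℝ) 1) {u : ℂ} (hu : ‖u‖ < 1) :
    1 - ‖mob r u‖ ^ 2 = (1 - r ^ 2) * (1 - ‖u‖ ^ 2) / ‖1 + (r : ℂ) * u‖ ^ 2 := by
  have h : ‖1 + (r : ℂ) * u‖ ^ 2 ≠ 0 := pow_ne_zero 2 (norm_ne_zero_iff.2 (mob_den_ne hr hu))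
  rw [eq_div_iff h, mob, norm_div, div_pow, sub_mul, div_mul_cancel₀ _ h]
  simp only [Complex.sq_norm, Complex.normSq_apply, Complex.add_re, Complex.add_im,
    Complex.one_re, Complex.one_im, Complex.ofReal_re, Complex.ofReal_im, Complex.mul_re,
    Complex.mul_im]
  ring

theorem norm_mob_lt {r : ℝ} (hr : r ∈ Ico (0 : ℝ) 1) {u : ℂ} (hu : ‖u‖ < 1) : ‖mob r u‖ < 1 := by
  have h : 0 < 1 - ‖mob r u‖ ^ 2 := by
    rw [sq_norm_mob hr hu]
    exact div_pos (mul_pos (by nlinarith [hr.1, hr.2]) (by nlinarith [norm_nonneg u]))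
      (pow_pos (norm_pos_iff.2 (mob_den_ne hr hu)) 2)
  nlinarith [norm_nonneg (mob r u)]

theorem hasDerivAt_mob {r : ℝ} (hr : r ∈ Ico (0 : ℝ) 1) {u : ℂ} (hu : ‖u‖ < 1) :
    HasDerivAt (mob r) ((1 - (r : ℂ) ^ 2) / (1 + r * u) ^ 2) u := by
  refine (((hasDerivAt_id u).const_add (r : ℂ)).div
    (((hasDerivAt_id u).const_mul (r : ℂ)).const_add 1) (mob_den_ne hr hu)).congr_deriv ?_
  simp only [id_eq]
  ring

theorem mob_inj {r : ℝ} (hr : r ∈ Ico (0 : ℝ) 1) {u v : ℂ} (hu : ‖u‖ < 1) (hv : ‖v‖ < 1)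
    (h : mob r u = mob r v) : u = v := by
  rw [mob, mob, div_eq_div_iff (mob_den_ne hr hu) (mob_den_ne hr hv)] at h
  have h2 : (1 - (r : ℂ) ^ 2) * (u - v) = 0 := by linear_combination h
  rcases mul_eq_zero.1 h2 with h3 | h3
  · exfalso
    have : (r : ℝ) ^ 2 = 1 := by exact_mod_cast (sub_eq_zero.1 h3).symm
    nlinarith [hr.1, hr.2]
  · exact sub_eq_zero.1 h3

/-- Bound for the change of the kernel under the automorphism, uniform on smaller discs. -/
theorem norm_Lg_sub_le (ζ₀ ζ : Circ) {ρ : ℝ} (hρ : ρ < 1) {r : ℝ} (hr : r ∈ Ico (0 : ℝ) 1) {u : ℂ}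
    (hu : ‖u‖ ≤ ρ) :
    ‖Lg ((ζ₀ : ℂ) * mob r u) ζ - Lg ((ζ₀ : ℂ) * r) ζ‖ ≤
      Real.log (1 + 16 / ((1 - ρ) * (1 - ρ ^ 2))) + π := by
  have hu1 : ‖u‖ < 1 := hu.trans_lt hρ
  have hρ0 : 0 ≤ ρ := le_trans (norm_nonneg u) hu
  have hb2 : 0 < 1 - ρ ^ 2 := by nlinarith
  have hr1 : 0 < 1 - r := by linarith [hr.2]
  have hz : ‖(ζ₀ : ℂ) * mob r u‖ < 1 := by rw [norm_mul, norm_circ, one_mul]; exact norm_mob_lt hr hu1
  have hw : ‖(ζ₀ : ℂ) * r‖ = r := by
    rw [norm_mul, norm_circ, one_mul, Complex.norm_real, Real.norm_eq_abs, abs_of_nonneg hr.1]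
  have hw1 : ‖(ζ₀ : ℂ) * r‖ < 1 := by rw [hw]; exact hr.2
  set z := (ζ₀ : ℂ) * mob r u
  set w := (ζ₀ : ℂ) * r
  set Q := 1 + 16 / ((1 - ρ) * (1 - ρ ^ 2)) with hQ
  have hden : 1 - ρ ≤ ‖1 + (r : ℂ) * u‖ := by
    have h1 := norm_sub_norm_le (1 : ℂ) (-((r : ℂ) * u))
    rw [sub_neg_eq_add, norm_one, norm_neg, norm_mul, Complex.norm_real, Real.norm_eq_abs,
      abs_of_nonneg hr.1] at h1
    linarith [mul_le_of_le_one_left (norm_nonneg u) hr.2.le]
  have hnum : 1 - ‖u‖ ^ 2 ≥ 1 - ρ ^ 2 := by nlinarith [norm_nonneg u]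
  have hdle : dist z w ≤ 2 * (1 - r) / (1 - ρ) := by
    rw [dist_eq_norm, ← mul_sub, norm_mul, norm_circ, one_mul, mob_sub hr hu1, norm_div, norm_mul,
      show (1 - (r : ℂ) ^ 2) = ((1 - r ^ 2 : ℝ) : ℂ) by push_cast; ring, Complex.norm_real,
      Real.norm_eq_abs, abs_of_nonneg (by nlinarith [hr.1, hr.2] : (0 : ℝ) ≤ 1 - r ^ 2)]
    refine div_le_div₀ (by linarith) ?_ (by linarith) hden
    calc ‖u‖ * (1 - r ^ 2) ≤ 1 * (1 - r ^ 2) :=
          mul_le_mul_of_nonneg_right hu1.le (by nlinarith [hr.1, hr.2])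
      _ ≤ 2 * (1 - r) := by nlinarith
  have hgap : (1 - r) * (1 - ρ ^ 2) / 8 ≤ 1 - ‖z‖ := by
    have hzn : ‖z‖ = ‖mob r u‖ := by rw [norm_mul, norm_circ, one_mul]
    have h2 : ‖1 + (r : ℂ) * u‖ ^ 2 ≤ 4 := by
      have := norm_add_le (1 : ℂ) ((r : ℂ) * u)
      rw [norm_one] at this
      nlinarith [norm_nonneg (1 + (r : ℂ) * u), norm_mul_lt hr hu1]
    have h3 : (1 - r) * (1 - ρ ^ 2) / 4 ≤ 1 - ‖mob r u‖ ^ 2 := by
      rw [sq_norm_mob hr hu1]
      refine div_le_div₀ (mul_nonneg (by nlinarith [hr.1, hr.2]) (by linarith)) ?_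
        (pow_pos (norm_pos_iff.2 (mob_den_ne hr hu1)) 2) h2
      exact mul_le_mul (by nlinarith [hr.1, hr.2]) hnum hb2.le (by nlinarith [hr.1, hr.2])
    rw [hzn]
    nlinarith [norm_mob_lt hr hu1, norm_nonneg (mob r u)]
  have hQ1 : 1 ≤ Q := by
    have : (0 : ℝ) < (1 - ρ) * (1 - ρ ^ 2) := mul_pos (by linarith) hb2
    rw [hQ]
    linarith [div_nonneg (show (0 : ℝ) ≤ 16 by norm_num) this.le]
  have hA : dist w (ζ : ℂ) ≥ 1 - r := by
    have := one_sub_norm_le_dist w ζ; rw [hw] at this; exact this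
  have hB : dist z (ζ : ℂ) ≥ (1 - r) * (1 - ρ ^ 2) / 8 := hgap.trans (one_sub_norm_le_dist z ζ)
  have h1 : dist z (ζ : ℂ) ≤ Q * dist w (ζ : ℂ) := by
    have ha : 2 * (1 - r) / (1 - ρ) ≤ 16 / ((1 - ρ) * (1 - ρ ^ 2)) * dist w (ζ : ℂ) := by
      rw [div_le_iff₀ (by linarith : (0:ℝ) < 1 - ρ)]
      calc 2 * (1 - r) ≤ 16 / (1 - ρ ^ 2) * (1 - r) := by
            refine mul_le_mul_of_nonneg_right ?_ hr1.le
            rw [le_div_iff₀ hb2]; nlinarith
        _ ≤ 16 / (1 - ρ ^ 2) * dist w (ζ : ℂ) := mul_le_mul_of_nonneg_left hA (by positivity)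
        _ = _ := by
            have hne : (1 - ρ) ≠ 0 := by linarith
            field_simp
    rw [hQ, add_mul, one_mul]
    linarith [dist_triangle z w (ζ : ℂ)]
  have h2 : dist w (ζ : ℂ) ≤ Q * dist z (ζ : ℂ) := by
    have ha : 2 * (1 - r) / (1 - ρ) ≤ 16 / ((1 - ρ) * (1 - ρ ^ 2)) * dist z (ζ : ℂ) := by
      calc 2 * (1 - r) / (1 - ρ) =
            16 / ((1 - ρ) * (1 - ρ ^ 2)) * ((1 - r) * (1 - ρ ^ 2) / 8) := by
            field_simp
            ring
        _ ≤ _ := mul_le_mul_of_nonneg_left hB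
            (div_nonneg (by norm_num) (mul_nonneg (by linarith) hb2.le))
    rw [hQ, add_mul, one_mul]
    linarith [dist_triangle w z (ζ : ℂ), dist_comm z w]
  have hre : |Real.log (dist z (ζ : ℂ)) - Real.log (dist w (ζ : ℂ))| ≤ Real.log Q := by
    have hp := dist_pos hz ζ
    have hq := dist_pos hw1 ζ
    rw [abs_le]
    constructor
    · have := Real.log_le_log hq h2
      rw [Real.log_mul (by linarith) hp.ne'] at this
      linarith
    · have := Real.log_le_log hp h1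
      rw [Real.log_mul (by linarith) hq.ne'] at this
      linarith
  refine (Complex.norm_le_abs_re_add_abs_im _).trans (add_le_add ?_ ?_)
  · rw [Complex.sub_re, re_Lg, re_Lg]; exact hre
  · rw [Complex.sub_im]
    have := abs_sub (Lg z ζ).im (Lg w ζ).im
    linarith [abs_im_Lg hz ζ, abs_im_Lg hw1 ζ]

/-- Along the automorphisms only the atom survives. -/
theorem tendsto_Lg_sub (ζ₀ ζ : Circ) {r : ℕ → ℝ} (hr : ∀ n, r n ∈ Ico (0 : ℝ) 1)
    (hr1 : Tendsto r atTop (𝓝 1)) {u : ℂ} (hu : ‖u‖ < 1) :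
    Tendsto (fun n => Lg ((ζ₀ : ℂ) * mob (r n) u) ζ - Lg ((ζ₀ : ℂ) * r n) ζ) atTop
      (𝓝 (({ζ₀} : Set Circ).indicator (fun _ => Complex.log (cay u)) ζ)) := by
  have hrc : Tendsto (fun n => (r n : ℂ)) atTop (𝓝 1) := by
    simpa [Function.comp_def] using (Complex.continuous_ofReal.tendsto 1).comp hr1
  rcases eq_or_ne ζ ζ₀ with rfl | hne
  · rw [indicator_of_mem (mem_singleton _)]
    have hlim : Tendsto (fun n => Complex.log ((1 - u) / (1 + (r n : ℂ) * u))) atTop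
        (𝓝 (Complex.log (cay u))) := by
      refine (continuousAt_clog (Or.inl (cay_re_pos hu))).tendsto.comp ?_
      have h := (hrc.mul_const u).const_add 1
      rw [one_mul] at h
      exact (tendsto_const_nhds).div h (one_add_ne hu)
    refine hlim.congr fun n => ?_
    have key : ∀ v : ℂ, Lg ((ζ : ℂ) * v) ζ = Complex.log (1 - v) := fun v => by
      rw [Lg, show (ζ : ℂ) * v * conj (ζ : ℂ) = ((ζ : ℂ) * conj (ζ : ℂ)) * v by ring, mul_conj_circ,
        one_mul]
    have hpos : (0 : ℝ) < 1 - r n := by linarith [(hr n).2]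
    have hq : (1 - u) / (1 + (r n : ℂ) * u) ≠ 0 :=
      div_ne_zero (one_sub_ne hu) (mob_den_ne (hr n) hu)
    rw [key, key, one_sub_mob (hr n) hu, Complex.log_ofReal_mul hpos hq,
      show (1 : ℂ) - (r n : ℂ) = ((1 - r n : ℝ) : ℂ) by push_cast; ring,
      ← Complex.ofReal_log hpos.le]
    ring
  · rw [indicator_of_notMem (by simpa using hne)]
    have hslit : 1 - (ζ₀ : ℂ) * conj (ζ : ℂ) ∈ Complex.slitPlane := by
      refine Or.inl ?_
      set x := (ζ₀ : ℂ) * conj (ζ : ℂ) with hx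
      have hx1 : x.re * x.re + x.im * x.im = 1 := by
        rw [← Complex.normSq_apply, Complex.normSq_eq_norm_sq, hx, norm_mul, Complex.norm_conj,
          norm_circ, norm_circ]
        norm_num
      have hxne : x ≠ 1 := fun h => hne (Subtype.ext (by
        have := congrArg (fun y => y * (ζ : ℂ)) h
        simp only [hx, one_mul] at this
        rw [mul_assoc, mul_comm (conj (ζ : ℂ)), mul_conj_circ, mul_one] at this
        exact this.symm))
      simp only [Complex.sub_re, Complex.one_re]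
      by_contra hcon
      push Not at hcon
      have hre : x.re = 1 := by nlinarith [mul_self_nonneg x.im]
      have him : x.im = 0 := by
        have : x.im * x.im = 0 := by rw [hre] at hx1; linarith
        exact mul_self_eq_zero.1 this
      exact hxne (Complex.ext hre him)
    have hone : Tendsto (fun n => mob (r n) u) atTop (𝓝 1) := by
      have h1 := (hrc.mul_const u).const_add 1
      rw [one_mul] at h1
      have := (hrc.add_const u).div h1 (one_add_ne hu)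
      rwa [div_self (one_add_ne hu)] at this
    have key : ∀ v : ℕ → ℂ, Tendsto v atTop (𝓝 1) →
        Tendsto (fun n => Lg ((ζ₀ : ℂ) * v n) ζ) atTop
          (𝓝 (Complex.log (1 - (ζ₀ : ℂ) * conj (ζ : ℂ)))) := fun v hv => by
      refine (continuousAt_clog hslit).tendsto.comp ?_
      simpa using ((hv.const_mul (ζ₀ : ℂ)).mul_const (conj (ζ : ℂ))).const_sub 1
    simpa using (key _ hone).sub (key _ hrc)

/-- Univalence: the signed mass of every point lies in `[-3, 1]`. -/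
theorem atom_bound {f : ℂ → ℂ} (hf : DifferentiableOn ℂ f (ball 0 1)) (hinj : InjOn f (ball 0 1))
    (hne : ∀ z ∈ ball (0 : ℂ) 1, deriv f z ≠ 0) (P N : FiniteMeasure Circ)
    (hrep : ∀ w, ‖w‖ < 1 → deriv f w = deriv f 0 * Complex.exp (Phi P N w)) (ζ₀ : Circ) :
    |(P : Measure Circ).real {ζ₀} - (N : Measure Circ).real {ζ₀} + 1| ≤ 2 := by
  by_contra hcon
  push Not at hcon
  set a : ℝ := (P : Measure Circ).real {ζ₀} - (N : Measure Circ).real {ζ₀} with ha
  have hp : a + 1 ≠ 0 := fun h => by rw [h, abs_zero] at hcon; linarith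
  set r : ℕ → ℝ := fun n => 1 - 1 / ((n : ℝ) + 2) with hrdef
  have hr : ∀ n, r n ∈ Ico (0 : ℝ) 1 := fun n => by
    have h2 : (1 : ℝ) ≤ n + 2 := by linarith [n.cast_nonneg (α := ℝ)]
    have : 1 / ((n : ℝ) + 2) ≤ 1 := (div_le_one (by linarith)).2 h2
    have : 0 < 1 / ((n : ℝ) + 2) := by positivity
    constructor <;> simp only [hrdef] <;> linarith
  have hr1 : Tendsto r atTop (𝓝 1) := by
    have h0 : Tendsto (fun n : ℕ => 1 / ((n : ℝ) + 2)) atTop (𝓝 0) := by
      simpa [one_div, Function.comp_def] using tendsto_inv_atTop_zero.comp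
        (tendsto_natCast_atTop_atTop.atTop_add (tendsto_const_nhds (x := (2 : ℝ))))
    simpa [hrdef] using h0.const_sub 1
  set z : ℕ → ℂ → ℂ := fun n u => (ζ₀ : ℂ) * mob (r n) u
  set w : ℕ → ℂ := fun n => (ζ₀ : ℂ) * r n
  have hz : ∀ n u, ‖u‖ < 1 → ‖z n u‖ < 1 := fun n u hu => by
    simp only [z, norm_mul, norm_circ, one_mul]; exact norm_mob_lt (hr n) hu
  have hw : ∀ n, ‖w n‖ < 1 := fun n => by
    simpa [w, norm_circ, abs_of_nonneg (hr n).1] using (hr n).2
  set c : ℕ → ℂ := fun n => deriv f (w n) * ((ζ₀ : ℂ) * (1 - (r n : ℂ) ^ 2))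
  have hζ : (ζ₀ : ℂ) ≠ 0 := fun h => by simpa [h] using norm_circ ζ₀
  have hc : ∀ n, c n ≠ 0 := fun n => by
    refine mul_ne_zero (hne _ (by simpa using hw n)) (mul_ne_zero hζ fun h => ?_)
    have : (r n) ^ 2 = 1 := by exact_mod_cast (sub_eq_zero.1 h).symm
    nlinarith [(hr n).1, (hr n).2]
  set F : ℕ → ℂ → ℂ := fun n u => (f (z n u) - f (w n)) / c n
  set Δ : ℕ → ℂ → ℂ := fun n u =>
    (∫ ζ, Lg (z n u) ζ - Lg (w n) ζ ∂(P : Measure Circ)) -
      ∫ ζ, Lg (z n u) ζ - Lg (w n) ζ ∂(N : Measure Circ)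
  have hF : ∀ n u, ‖u‖ < 1 →
      HasDerivAt (F n) (Complex.exp (Δ n u) / (1 + (r n : ℂ) * u) ^ 2) u := by
    intro n u hu
    have h1 := ((hf.differentiableAt (isOpen_ball.mem_nhds (mem_ball_zero_iff.2 (hz n u hu)))).hasDerivAt.comp
      u ((hasDerivAt_mob (hr n) hu).const_mul (ζ₀ : ℂ))).sub_const (f (w n))
    refine ((h1.div_const (c n))).congr_deriv ?_
    have hΔ : Δ n u = Phi P N (z n u) - Phi P N (w n) := by
      simp only [Δ, Phi, integral_sub (integrable_Lg (hz n u hu) (P : Measure Circ))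
          (integrable_Lg (hw n) (P : Measure Circ)),
        integral_sub (integrable_Lg (hz n u hu) (N : Measure Circ))
          (integrable_Lg (hw n) (N : Measure Circ))]
      ring
    have hd0 : deriv f 0 ≠ 0 := hne 0 (by simp)
    have hr2 : (1 : ℂ) - (r n : ℂ) ^ 2 ≠ 0 := fun h => hc n (by simp only [c, h, mul_zero])
    rw [hΔ, Complex.exp_sub]
    simp only [c]
    rw [hrep _ (hz n u hu), hrep _ (hw n)]
    have := Complex.exp_ne_zero (Phi P N (w n))
    field_simp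
  have hbd : ∀ ρ < (1 : ℝ), ∃ M : ℝ, ∀ n, ∀ u ∈ closedBall (0 : ℂ) ρ,
      ‖Complex.exp (Δ n u) / (1 + (r n : ℂ) * u) ^ 2‖ ≤ M := by
    intro ρ hρ
    set B := Real.log (1 + 16 / ((1 - ρ) * (1 - ρ ^ 2))) + π
    refine ⟨Real.exp (B * (P : Measure Circ).real univ + B * (N : Measure Circ).real univ) /
      (1 - ρ) ^ 2, fun n u hu => ?_⟩
    rw [mem_closedBall_zero_iff] at hu
    rw [norm_div, norm_pow, Complex.norm_exp]
    refine div_le_div₀ (Real.exp_pos _).le (Real.exp_le_exp.2 ?_) (by nlinarith) ?_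
    · refine (Complex.re_le_norm _).trans ((norm_sub_le _ _).trans (add_le_add ?_ ?_)) <;>
      exact norm_integral_le_of_norm_le_const
        (Eventually.of_forall fun ζ => norm_Lg_sub_le ζ₀ ζ hρ (hr n) hu)
    · refine pow_le_pow_left₀ (by linarith) ?_ 2
      have h1 := norm_sub_norm_le (1 : ℂ) (-((r n : ℂ) * u))
      rw [sub_neg_eq_add, norm_one, norm_neg, norm_mul, Complex.norm_real, Real.norm_eq_abs,
        abs_of_nonneg (hr n).1] at h1
      linarith [mul_le_of_le_one_left (norm_nonneg u) (hr n).2.le]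
  have hΔlim : ∀ u, ‖u‖ < 1 →
      Tendsto (fun n => Complex.exp (Δ n u) / (1 + (r n : ℂ) * u) ^ 2) atTop
        (𝓝 (Complex.exp ((a : ℂ) * Complex.log (cay u)) / (1 + u) ^ 2)) := by
    intro u hu
    have key : ∀ μ : Measure Circ, IsFiniteMeasure μ →
        Tendsto (fun n => ∫ ζ, Lg (z n u) ζ - Lg (w n) ζ ∂μ) atTop
          (𝓝 ((μ.real {ζ₀} : ℂ) * Complex.log (cay u))) := by
      intro μ hμ
      have h := tendsto_integral_of_dominated_convergence (μ := μ)
        (fun _ : Circ => Real.log (1 + 16 / ((1 - ‖u‖) * (1 - ‖u‖ ^ 2))) + π)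
        (fun n => ((continuous_Lg (hz n u hu)).sub (continuous_Lg (hw n))).aestronglyMeasurable)
        (integrable_const _)
        (fun n => Eventually.of_forall fun ζ => norm_Lg_sub_le ζ₀ ζ hu (hr n) le_rfl)
        (Eventually.of_forall fun ζ => tendsto_Lg_sub ζ₀ ζ hr hr1 hu)
      rwa [integral_indicator_const _ (measurableSet_singleton ζ₀), Complex.real_smul] at h
    have hΔ' : Tendsto (fun n => Δ n u) atTop (𝓝 ((a : ℂ) * Complex.log (cay u))) := by
      rw [ha, Complex.ofReal_sub, sub_mul]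
      exact (key _ inferInstance).sub (key _ inferInstance)
    refine ((Complex.continuous_exp.tendsto _).comp hΔ').div ?_ (pow_ne_zero 2 (one_add_ne hu))
    have h1 := (((Complex.continuous_ofReal.tendsto 1).comp hr1).mul_const u).const_add 1
    simpa [Function.comp_def] using h1.pow 2
  have hdon : ∀ n, DifferentiableOn ℂ (F n) (ball 0 1) := fun n u hu =>
    (hF n u (by simpa using hu)).differentiableAt.differentiableWithinAt
  have hlim : ∀ u ∈ ball (0 : ℂ) 1,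
      Tendsto (fun n => F n u) atTop (𝓝 (modelMap (a + 1) u)) := by
    intro u hu
    rw [mem_ball_zero_iff] at hu
    have hseg : ∀ s ∈ Icc (0 : ℝ) 1, ‖(s : ℂ) * u‖ ≤ ‖u‖ := fun s hs => by
      rw [norm_mul, Complex.norm_real, Real.norm_eq_abs, abs_of_nonneg hs.1]
      exact mul_le_of_le_one_left (norm_nonneg _) hs.2
    have hline : ∀ (g g' : ℂ → ℂ) (s : ℝ), (∀ v, ‖v‖ < 1 → HasDerivAt g (g' v) v) →
        s ∈ Icc (0 : ℝ) 1 → HasDerivAt (fun s : ℝ => g ((s : ℂ) * u)) (u * g' ((s : ℂ) * u)) s := by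
      intro g g' s hg hs
      have h1 : HasDerivAt (fun v : ℂ => g (v * u)) (u * g' ((s : ℂ) * u)) (s : ℂ) := by
        have := (hg _ ((hseg s hs).trans_lt hu)).comp (s : ℂ) ((hasDerivAt_id (s : ℂ)).mul_const u)
        refine this.congr_deriv ?_
        ring
      exact h1.comp_ofReal
    obtain ⟨M, hM⟩ := hbd ‖u‖ hu
    set d : ℕ → ℂ → ℂ := fun n v => Complex.exp (Δ n v) / (1 + (r n : ℂ) * v) ^ 2
    set g : ℂ → ℂ := fun v => Complex.exp ((a : ℂ) * Complex.log (cay v)) / (1 + v) ^ 2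
    have hd0 : ∀ n, DifferentiableOn ℂ (deriv (F n)) (ball 0 1) := fun n => (hdon n).deriv isOpen_ball
    have hcontd : ∀ n, ContinuousOn (fun s : ℝ => u * d n ((s : ℂ) * u)) (Icc 0 1) := fun n => by
      refine continuousOn_const.mul (ContinuousOn.congr (f := fun s : ℝ => deriv (F n) ((s : ℂ) * u))
        ?_ fun s hs => ((hF n _ ((hseg s hs).trans_lt hu)).deriv).symm)
      exact (hd0 n).continuousOn.comp (by fun_prop)
        fun s hs => mem_ball_zero_iff.2 ((hseg s hs).trans_lt hu)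
    have hI : ∀ n, ∫ s in (0 : ℝ)..1, u * d n ((s : ℂ) * u) = F n u := by
      intro n
      rw [intervalIntegral.integral_eq_sub_of_hasDerivAt (f := fun s : ℝ => F n ((s : ℂ) * u))
        (fun s hs => hline (F n) (d n) s (hF n) (by rwa [uIcc_of_le zero_le_one] at hs))
        ((hcontd n).intervalIntegrable_of_Icc zero_le_one)]
      simp [F, z, w, mob]
    have hg : ∀ v, ‖v‖ < 1 → HasDerivAt (modelMap (a + 1)) (g v) v := fun v hv =>
      hasDerivAt_modelMap hp hv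
    have hcg : ContinuousOn (fun s : ℝ => u * g ((s : ℂ) * u)) (Icc 0 1) := by
      refine continuousOn_const.mul fun s hs => ContinuousAt.continuousWithinAt ?_
      have hv := (hseg s hs).trans_lt hu
      refine ContinuousAt.comp (g := g) ?_ (by fun_prop)
      exact ((((hasDerivAt_cay hv).continuousAt.clog (Or.inl (cay_re_pos hv))).const_mul
        (a : ℂ)).cexp).div (by fun_prop) (pow_ne_zero 2 (one_add_ne hv))
    have hJ : ∫ s in (0 : ℝ)..1, u * g ((s : ℂ) * u) = modelMap (a + 1) u := by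
      rw [intervalIntegral.integral_eq_sub_of_hasDerivAt
        (f := fun s : ℝ => modelMap (a + 1) ((s : ℂ) * u))
        (fun s hs => hline _ g s hg (by rwa [uIcc_of_le zero_le_one] at hs))
        (hcg.intervalIntegrable_of_Icc zero_le_one)]
      simp [modelMap, cay]
    rw [← hJ]
    refine Tendsto.congr hI ?_
    refine intervalIntegral.tendsto_integral_filter_of_dominated_convergence (fun _ => ‖u‖ * M)
      (Eventually.of_forall fun n => ?_) (Eventually.of_forall fun n => ?_) (by simp) ?_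
    · rw [uIoc_of_le zero_le_one]
      exact ((hcontd n).mono Ioc_subset_Icc_self).aestronglyMeasurable measurableSet_Ioc
    · refine Eventually.of_forall fun s hs => ?_
      rw [uIoc_of_le zero_le_one] at hs
      rw [norm_mul]
      exact mul_le_mul_of_nonneg_left
        (hM n _ (mem_closedBall_zero_iff.2 (hseg s (Ioc_subset_Icc_self hs)))) (norm_nonneg _)
    · refine Eventually.of_forall fun s hs => ?_
      rw [uIoc_of_le zero_le_one] at hs
      exact (hΔlim _ ((hseg s (Ioc_subset_Icc_self hs)).trans_lt hu)).const_mul u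
  obtain ⟨u, v, hu, hv, huv, huv'⟩ := modelMap_not_injective hcon
  refine huv (eq_of_limit_injOn hdon (fun n x hx y hy h => ?_) (fun ρ hρ => ?_) hlim (by simpa using hu)
    (by simpa using hv) ?_ ?_ huv')
  · rw [mem_ball_zero_iff] at hx hy
    simp only [F, div_left_inj' (hc n), sub_left_inj] at h
    have := hinj (mem_ball_zero_iff.2 (hz n x hx)) (mem_ball_zero_iff.2 (hz n y hy)) h
    exact mob_inj (hr n) hx hy (mul_left_cancel₀ hζ this)
  · obtain ⟨M, hM⟩ := hbd ρ hρ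
    refine ⟨M, fun n x hx => ?_⟩
    rw [(hF n x ((mem_closedBall_zero_iff.1 hx).trans_lt hρ)).deriv]
    exact hM n x hx
  all_goals
    refine ⟨_, div_ne_zero (Complex.exp_ne_zero _) (pow_ne_zero 2 (one_add_ne ?_)),
      hasDerivAt_modelMap hp ?_⟩ <;> assumption

end Vale.Agent.P142
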