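import Vale.Agent.P142.Rep

/-!
# P142: integrability of powers of the derivative from the atom bounds
-/

open MeasureTheory Set Metric Filter
open scoped ENNReal NNReal Topology Real ComplexConjugate

noncomputable section

namespace Vale.Agent.P142

theorem finrank_complex : Module.finrank ℝ ℂ = 2 := Complex.finrank_real_complex

/-- `(1 - |z|)^(-1/2)` is integrable on the disc. -/
theorem lintegral_one_sub_norm :
    ∫⁻ z in ball (0 : ℂ) 1, ENNReal.ofReal ((1 - ‖z‖) ^ (-(1 / 2 : ℝ))) < ⊤ := by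
  have hint : IntegrableOn (fun z : ℂ => (1 - ‖z‖) ^ (-(1 / 2 : ℝ))) (ball 0 1) := by
    refine (integrableOn_fun_norm_addHaar volume
      (f := fun y : ℝ => (1 - y) ^ (-(1 / 2 : ℝ))) (r := 1)).2 ?_
    have h0 : IntervalIntegrable (fun y : ℝ => (1 - y) ^ (-(1 / 2 : ℝ))) volume 0 1 := by
      simpa using ((intervalIntegral.intervalIntegrable_rpow' (a := (0 : ℝ)) (b := 1)
        (r := -(1 / 2 : ℝ)) (by norm_num)).comp_sub_left 1).symm
    have h1 : IntegrableOn (fun y : ℝ => (1 - y) ^ (-(1 / 2 : ℝ))) (Ioo 0 1) :=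
      ((intervalIntegrable_iff_integrableOn_Ioc_of_le zero_le_one).1 h0).mono_set Ioo_subset_Ioc_self
    refine h1.mono' (by fun_prop) (ae_restrict_of_forall_mem measurableSet_Ioo fun y hy => ?_)
    rw [finrank_complex, show (2 : ℕ) - 1 = 1 from rfl, pow_one, smul_eq_mul, norm_mul, Real.norm_eq_abs,
      Real.norm_eq_abs, abs_of_pos hy.1,
      abs_of_nonneg (Real.rpow_nonneg (show (0 : ℝ) ≤ 1 - y by linarith [hy.2]) _)]
    exact mul_le_of_le_one_left (Real.rpow_nonneg (by linarith [hy.2]) _) hy.2.le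
  have := hint.setLIntegral_lt_top
  exact this

/-- `|z - c|^(-p)` is integrable on the disc for `p < 2`. -/
theorem lintegral_dist {p : ℝ} (hp : p < 2) {c : ℂ} (hc : ‖c‖ ≤ 1) :
    ∫⁻ z in ball (0 : ℂ) 1, ENNReal.ofReal (dist z c ^ (-p)) < ⊤ := by
  have hint : IntegrableOn (fun z : ℂ => ‖z‖ ^ (-p)) (ball 0 2) := by
    refine (integrableOn_fun_norm_addHaar volume (f := fun y : ℝ => y ^ (-p)) (r := 2)).2 ?_
    have h1 : IntegrableOn (fun y : ℝ => y ^ (1 - p)) (Ioo 0 2) :=
      (intervalIntegral.integrableOn_Ioo_rpow_iff two_pos).2 (by linarith)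
    refine h1.congr_fun (fun y hy => ?_) measurableSet_Ioo
    simp only [finrank_complex, show (2 : ℕ) - 1 = 1 from rfl, pow_one, smul_eq_mul]
    rw [sub_eq_add_neg, Real.rpow_add hy.1, Real.rpow_one]
  have hmp := measurePreserving_sub_right (volume : Measure ℂ) c
  calc ∫⁻ z in ball (0 : ℂ) 1, ENNReal.ofReal (dist z c ^ (-p))
      ≤ ∫⁻ z in (fun z => z - c) ⁻¹' ball (0 : ℂ) 2, ENNReal.ofReal (‖z - c‖ ^ (-p)) := by
        simp only [dist_eq_norm]
        refine lintegral_mono_set fun z hz => ?_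
        rw [mem_ball_zero_iff] at hz
        simp only [mem_preimage, mem_ball_zero_iff]
        linarith [norm_sub_le z c]
    _ = ∫⁻ z in ball (0 : ℂ) 2, ENNReal.ofReal (‖z‖ ^ (-p)) :=
        hmp.setLIntegral_comp_preimage measurableSet_ball
          (show Measurable fun z : ℂ => ENNReal.ofReal (‖z‖ ^ (-p)) by fun_prop)
    _ < ⊤ := hint.setLIntegral_lt_top

/-- The integral of `log |z - ζ|` is the atom at `ζ₀` up to a small multiple of `-log (1 - |z|)`. -/
theorem abs_integral_log_sub (μ : Measure Circ) [IsFiniteMeasure μ] (ζ₀ : Circ) {ρ : ℝ} (hρ : 0 < ρ)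
    {z : ℂ} (hz : ‖z‖ < 1) (hzρ : dist z (ζ₀ : ℂ) < ρ) :
    |(∫ ζ : Circ, Real.log (dist z (ζ : ℂ)) ∂μ) - μ.real {ζ₀} * Real.log (dist z (ζ₀ : ℂ))| ≤
      μ.real (ball ζ₀ (2 * ρ) \ {ζ₀}) * (Real.log 2 - Real.log (1 - ‖z‖)) +
        μ.real univ * (|Real.log ρ| + Real.log 2) := by
  set L := |Real.log ρ| + Real.log 2
  set B := Real.log 2 - Real.log (1 - ‖z‖)
  have hl2 := Real.log_nonneg (show (1 : ℝ) ≤ 2 by norm_num)
  have hL : 0 ≤ L := by positivity
  have hcont : Continuous fun ζ : Circ => Real.log (dist z (ζ : ℂ)) :=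
    Continuous.log (by fun_prop) fun ζ => (dist_pos hz ζ).ne'
  have hi : Integrable (fun ζ : Circ => Real.log (dist z (ζ : ℂ))) μ :=
    hcont.integrable_of_hasCompactSupport (HasCompactSupport.of_compactSpace _)
  set S : Set Circ := ball ζ₀ (2 * ρ) \ {ζ₀}
  have hS : MeasurableSet S := measurableSet_ball.diff (measurableSet_singleton _)
  set c := Real.log (dist z (ζ₀ : ℂ))
  have hi2 : Integrable (({ζ₀} : Set Circ).indicator fun _ => c) μ :=
    (integrable_const c).indicator (measurableSet_singleton _)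
  have hval : ∫ ζ, ({ζ₀} : Set Circ).indicator (fun _ => c) ζ ∂μ = μ.real {ζ₀} * c := by
    rw [integral_indicator_const _ (measurableSet_singleton ζ₀), smul_eq_mul]
  rw [← hval, ← integral_sub hi hi2]
  rw [← Real.norm_eq_abs]
  refine (norm_integral_le_of_norm_le (μ := μ) (g := fun ζ => S.indicator (fun _ => B) ζ + L)
    (((integrable_const (μ := μ) B).indicator hS).add (integrable_const L))
    (Eventually.of_forall fun ζ => ?_)).trans (le_of_eq ?_)
  · rw [Real.norm_eq_abs]
    rcases eq_or_ne ζ ζ₀ with rfl | hne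
    · rw [indicator_of_mem (mem_singleton _), sub_self, abs_zero, indicator_of_notMem (by simp [S])]
      linarith
    rw [indicator_of_notMem (show ζ ∉ ({ζ₀} : Set Circ) by simpa using hne), sub_zero]
    by_cases hb : ζ ∈ ball ζ₀ (2 * ρ)
    · rw [indicator_of_mem (show ζ ∈ S from ⟨hb, by simpa using hne⟩)]
      linarith [abs_log_dist hz ζ]
    · rw [indicator_of_notMem (fun h => hb h.1), zero_add]
      rw [mem_ball, not_lt, Subtype.dist_eq] at hb
      have hlow : ρ ≤ dist z (ζ : ℂ) := by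
        linarith [dist_triangle (ζ : ℂ) z (ζ₀ : ℂ), dist_comm (ζ : ℂ) z]
      rw [abs_le]
      constructor
      · linarith [Real.log_le_log hρ hlow, neg_abs_le (Real.log ρ)]
      · linarith [Real.log_le_log (dist_pos hz ζ) (dist_le_two hz ζ), abs_nonneg (Real.log ρ)]
  · rw [integral_add ((integrable_const B).indicator hS) (integrable_const L),
      integral_indicator_const _ hS, integral_const, smul_eq_mul, smul_eq_mul]

theorem tendsto_punctured (μ : Measure Circ) [IsFiniteMeasure μ] (ζ₀ : Circ) :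
    Tendsto (fun n : ℕ => μ.real (ball ζ₀ (2 * (1 / ((n : ℝ) + 1))) \ {ζ₀})) atTop (𝓝 0) := by
  have h := tendsto_measure_iInter_atTop (μ := μ)
    (s := fun n : ℕ => ball ζ₀ (2 * (1 / ((n : ℝ) + 1))) \ {ζ₀})
    (fun n => (measurableSet_ball.diff (measurableSet_singleton _)).nullMeasurableSet)
    (fun m n hmn => sdiff_subset_sdiff_left (ball_subset_ball (by gcongr)))
    ⟨0, measure_ne_top _ _⟩
  have he : (⋂ n : ℕ, ball ζ₀ (2 * (1 / ((n : ℝ) + 1))) \ {ζ₀}) = ∅ := by
    refine eq_empty_of_forall_notMem fun ζ hζ => ?_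
    rw [mem_iInter] at hζ
    have hd : 0 < dist ζ ζ₀ := _root_.dist_pos.2 (by simpa using (hζ 0).2)
    obtain ⟨n, hn⟩ := exists_nat_one_div_lt (half_pos hd)
    have := mem_ball.1 (hζ n).1
    linarith
  rw [he, measure_empty] at h
  simpa [measureReal_def, Function.comp_def] using
    (ENNReal.tendsto_toReal ENNReal.zero_ne_top).comp h

/-- Log-modulus of the derivative. -/
theorem log_norm_exp_Phi (P N : Measure Circ) [IsFiniteMeasure P] [IsFiniteMeasure N] {z : ℂ}
    (hz : ‖z‖ < 1) :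
    (Phi P N z).re = (∫ ζ : Circ, Real.log (dist z (ζ : ℂ)) ∂P) -
      ∫ ζ : Circ, Real.log (dist z (ζ : ℂ)) ∂N := by
  have key : ∀ (μ : Measure Circ), IsFiniteMeasure μ →
      (∫ ζ, Lg z ζ ∂μ).re = ∫ ζ : Circ, Real.log (dist z (ζ : ℂ)) ∂μ := fun μ hμ => by
    rw [← integral_congr_ae (Eventually.of_forall fun ζ => re_Lg z ζ)]
    exact (integral_re (integrable_Lg hz μ)).symm
  rw [Phi, Complex.sub_re, key P inferInstance, key N inferInstance]

/-- Integrability from the atom bounds. -/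
theorem lintegral_lt_top {g : ℂ → ℂ} (hg : ContinuousOn g (ball 0 1)) (P N : Measure Circ)
    [IsFiniteMeasure P] [IsFiniteMeasure N]
    (hrep : ∀ w, ‖w‖ < 1 → g w = g 0 * Complex.exp (Phi P N w)) (h0 : g 0 ≠ 0) {t : ℝ}
    (hatom : ∀ ζ₀ : Circ, -2 < t * (P.real {ζ₀} - N.real {ζ₀})) :
    ∫⁻ z in ball (0 : ℂ) 1, ENNReal.ofReal (‖g z‖ ^ t) < ⊤ := by
  set μ : Measure ℂ := volume.restrict (ball 0 1)
  set F : ℂ → ℝ≥0∞ := fun z => ENNReal.ofReal (‖g z‖ ^ t)
  refine (isCompact_closedBall (0 : ℂ) 1).induction_on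
    (p := fun s => ∫⁻ z in s ∩ ball (0 : ℂ) 1, F z < ⊤) ?_ ?_ ?_ ?_ |> fun h => by
      rwa [inter_eq_right.2 ball_subset_closedBall] at h
  · simp
  · exact fun s u hsu h => (lintegral_mono_set (inter_subset_inter_left _ hsu)).trans_lt h
  · intro s u hs hu
    rw [union_inter_distrib_right]
    exact (lintegral_union_le _ _ _).trans_lt (ENNReal.add_lt_top.2 ⟨hs, hu⟩)
  intro c hc
  rw [mem_closedBall_zero_iff] at hc
  rcases hc.lt_or_eq with hc1 | hc1
  · -- interior point: `|g|^t` is bounded near it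
    have hca : ContinuousAt (fun z => ‖g z‖ ^ t) c := by
      refine ((hg.continuousAt (isOpen_ball.mem_nhds (by simpa using hc1))).norm).rpow_const
        (Or.inl (norm_ne_zero_iff.2 ?_))
      rw [hrep c hc1]
      exact mul_ne_zero h0 (Complex.exp_ne_zero _)
    obtain ⟨e, he, hb⟩ := Metric.eventually_nhds_iff.1
      (hca.eventually_lt_const (show ‖g c‖ ^ t < ‖g c‖ ^ t + 1 by linarith))
    refine ⟨ball c e, mem_nhdsWithin_of_mem_nhds (ball_mem_nhds c he), ?_⟩
    refine (setLIntegral_mono measurable_const fun z hz =>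
      ENNReal.ofReal_le_ofReal (hb (mem_ball.1 hz.1)).le).trans_lt ?_
    rw [setLIntegral_const]
    exact ENNReal.mul_lt_top ENNReal.ofReal_lt_top
      ((measure_mono inter_subset_left).trans_lt measure_ball_lt_top)
  -- boundary point
  set ζ₀ : Circ := ⟨c, mem_sphere_zero_iff_norm.2 hc1⟩
  set a : ℝ := P.real {ζ₀} - N.real {ζ₀}
  set p : ℝ := max (-(t * a)) 0 with hpdef
  have hp2 : p < 2 := max_lt (by linarith [hatom ζ₀]) two_pos
  have hp0 : 0 ≤ p := le_max_right _ _
  set δ : ℝ := (2 - p) / 4 with hδdef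
  have hδ : 0 < δ := by linarith
  have hδ1 : δ ≤ 1 / 2 := by linarith
  set q : ℝ := 1 + δ
  set q' : ℝ := (1 + δ) / δ
  have hsum := ((tendsto_punctured P ζ₀).add (tendsto_punctured N ζ₀)).const_mul |t|
  simp only [add_zero, mul_zero] at hsum
  obtain ⟨n, hn⟩ := (hsum.eventually_lt_const (show 0 < δ / (2 * (1 + δ)) by positivity)).exists
  set ρ : ℝ := 1 / ((n : ℝ) + 1)
  have hρ : 0 < ρ := by positivity
  set η : ℝ := |t| * (P.real (ball ζ₀ (2 * ρ) \ {ζ₀}) + N.real (ball ζ₀ (2 * ρ) \ {ζ₀})) with hηdef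
  have hη0 : 0 ≤ η := mul_nonneg (abs_nonneg t) (add_nonneg measureReal_nonneg measureReal_nonneg)
  refine ⟨ball c ρ, mem_nhdsWithin_of_mem_nhds (ball_mem_nhds c hρ), ?_⟩
  set C₁ : ℝ := |t| * ((P.real (ball ζ₀ (2 * ρ) \ {ζ₀}) + N.real (ball ζ₀ (2 * ρ) \ {ζ₀})) * Real.log 2
    + (P.real univ + N.real univ) * (|Real.log ρ| + Real.log 2)) + |t * a + p| * Real.log 2 with hC₁
  set C : ℝ := ‖g 0‖ ^ t * Real.exp C₁
  have hC : 0 ≤ C := by positivity
  refine (setLIntegral_mono' (measurableSet_ball.inter measurableSet_ball) (g := fun z =>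
    ENNReal.ofReal C * (ENNReal.ofReal ((1 - ‖z‖) ^ (-(1 / 2 : ℝ))) +
      ENNReal.ofReal (dist z c ^ (-(p * q))))) fun z hz => ?_).trans_lt ?_
  · obtain ⟨hzc, hz1⟩ := hz
    rw [mem_ball] at hzc
    rw [mem_ball_zero_iff] at hz1
    have hd : 0 < dist z c := dist_pos hz1 ζ₀
    have hd2 : dist z c ≤ 2 := dist_le_two hz1 ζ₀
    have h1r : 0 < 1 - ‖z‖ := by linarith
    rw [← ENNReal.ofReal_add (Real.rpow_nonneg h1r.le _) (Real.rpow_nonneg hd.le _),
      ← ENNReal.ofReal_mul hC]
    refine ENNReal.ofReal_le_ofReal ?_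
    have hexp : ‖g z‖ ^ t = ‖g 0‖ ^ t * Real.exp (t * (Phi P N z).re) := by
      rw [hrep z hz1, norm_mul, Complex.norm_exp,
        Real.mul_rpow (norm_nonneg _) (Real.exp_pos _).le, ← Real.exp_mul, mul_comm t]
    have hmain : t * (Phi P N z).re ≤ C₁ + (-η * Real.log (1 - ‖z‖)) + (-p * Real.log (dist z c)) := by
      have eP := abs_integral_log_sub P ζ₀ hρ hz1 hzc
      have eN := abs_integral_log_sub N ζ₀ hρ hz1 hzc
      rw [log_norm_exp_Phi P N hz1]
      set IP := ∫ ζ : Circ, Real.log (dist z (ζ : ℂ)) ∂P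
      set IN := ∫ ζ : Circ, Real.log (dist z (ζ : ℂ)) ∂N
      have ht : t * (IP - IN) - t * a * Real.log (dist z c) ≤
          |t| * (|IP - P.real {ζ₀} * Real.log (dist z c)| +
            |IN - N.real {ζ₀} * Real.log (dist z c)|) := by
        calc t * (IP - IN) - t * a * Real.log (dist z c)
            = t * ((IP - P.real {ζ₀} * Real.log (dist z c)) -
                (IN - N.real {ζ₀} * Real.log (dist z c))) := by simp only [a]; ring
          _ ≤ |t * ((IP - P.real {ζ₀} * Real.log (dist z c)) -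
                (IN - N.real {ζ₀} * Real.log (dist z c)))| := le_abs_self _
          _ ≤ _ := by rw [abs_mul]; exact mul_le_mul_of_nonneg_left (abs_sub _ _) (abs_nonneg t)
      have ht2 := mul_le_mul_of_nonneg_left (add_le_add eP eN) (abs_nonneg t)
      have hpos : (t * a + p) * Real.log (dist z c) ≤ |t * a + p| * Real.log 2 := by
        have h := le_max_left (-(t * a)) 0
        rw [← hpdef] at h
        rw [abs_of_nonneg (by linarith : 0 ≤ t * a + p)]
        exact mul_le_mul_of_nonneg_left (Real.log_le_log hd hd2) (by linarith)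
      rw [hC₁, hηdef]
      linarith
    calc ‖g z‖ ^ t ≤ C * ((1 - ‖z‖) ^ (-η) * dist z c ^ (-p)) := by
          rw [hexp, mul_assoc, Real.rpow_def_of_pos h1r, Real.rpow_def_of_pos hd,
            ← Real.exp_add, ← Real.exp_add]
          refine mul_le_mul_of_nonneg_left (Real.exp_le_exp.2 ?_)
            (Real.rpow_nonneg (norm_nonneg _) t)
          linarith
      _ ≤ C * ((1 - ‖z‖) ^ (-(η * q')) + dist z c ^ (-(p * q))) := by
          refine mul_le_mul_of_nonneg_left ?_ hC
          set A := (1 - ‖z‖) ^ (-η)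
          set B := dist z c ^ (-p)
          have hconj : q'.HolderConjugate q := by
            rw [Real.holderConjugate_iff]
            refine ⟨by simp only [q']; rw [lt_div_iff₀ hδ]; linarith, ?_⟩
            simp only [q, q']
            field_simp
            ring
          have hA0 : 0 ≤ A := Real.rpow_nonneg h1r.le _
          have hB0 : 0 ≤ B := Real.rpow_nonneg hd.le _
          refine (Real.young_inequality_of_nonneg hA0 hB0 hconj).trans (add_le_add ?_ ?_)
          · rw [← neg_mul, Real.rpow_mul h1r.le]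
            exact div_le_self (Real.rpow_nonneg hA0 _) (by
              simp only [q']; rw [le_div_iff₀ hδ]; linarith)
          · rw [← neg_mul, Real.rpow_mul hd.le]
            exact div_le_self (Real.rpow_nonneg hB0 _) (by simp only [q]; linarith)
      _ ≤ _ := by
          refine mul_le_mul_of_nonneg_left (add_le_add ?_ le_rfl) hC
          refine Real.rpow_le_rpow_of_exponent_ge h1r (by linarith [norm_nonneg z]) ?_
          have hq' : 0 ≤ q' := by positivity
          have : η * q' ≤ 1 / 2 := by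
            calc η * q' ≤ δ / (2 * (1 + δ)) * q' := mul_le_mul_of_nonneg_right hn.le hq'
              _ = 1 / 2 := by simp only [q']; field_simp
          linarith
  · rw [lintegral_const_mul _ (by fun_prop)]
    refine ENNReal.mul_lt_top ENNReal.ofReal_lt_top
      ((lintegral_mono_set inter_subset_right).trans_lt ?_)
    rw [lintegral_add_left (by fun_prop)]
    refine ENNReal.add_lt_top.2 ⟨lintegral_one_sub_norm, lintegral_dist ?_ hc⟩
    simp only [q, hδdef]
    nlinarith

end Vale.Agent.P142
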