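import Mathlib

/-!
# P142: the logarithmic kernel on the circle
-/

open MeasureTheory Set Metric Filter
open scoped ENNReal NNReal Topology Real ComplexConjugate

noncomputable section

namespace Vale.Agent.P142

/-- The unit circle. -/
abbrev Circ : Type := sphere (0 : ℂ) 1

/-- The kernel `log (1 - w conj ζ)`. -/
def Lg (w : ℂ) (ζ : Circ) : ℂ := Complex.log (1 - w * conj (ζ : ℂ))

theorem norm_circ (ζ : Circ) : ‖(ζ : ℂ)‖ = 1 := mem_sphere_zero_iff_norm.1 ζ.2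

theorem mul_conj_circ (ζ : Circ) : (ζ : ℂ) * conj (ζ : ℂ) = 1 := by
  rw [Complex.mul_conj, Complex.normSq_eq_norm_sq, norm_circ]; simp

theorem norm_one_sub (w : ℂ) (ζ : Circ) : ‖1 - w * conj (ζ : ℂ)‖ = dist w (ζ : ℂ) := by
  rw [show 1 - w * conj (ζ : ℂ) = ((ζ : ℂ) - w) * conj (ζ : ℂ) by rw [sub_mul, mul_conj_circ],
    norm_mul, Complex.norm_conj, norm_circ, mul_one, dist_eq_norm, norm_sub_rev]

theorem one_sub_norm_le_dist (w : ℂ) (ζ : Circ) : 1 - ‖w‖ ≤ dist w (ζ : ℂ) := by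
  have := norm_sub_norm_le (ζ : ℂ) w
  rw [norm_circ, ← dist_eq_norm, dist_comm] at this
  exact this

theorem re_pos {w : ℂ} (hw : ‖w‖ < 1) (ζ : Circ) : 0 < (1 - w * conj (ζ : ℂ)).re := by
  have : |(w * conj (ζ : ℂ)).re| ≤ ‖w‖ := (Complex.abs_re_le_norm _).trans (by simp [norm_circ])
  simp only [Complex.sub_re, Complex.one_re]
  linarith [(abs_le.1 this).2]

theorem mem_slitPlane {w : ℂ} (hw : ‖w‖ < 1) (ζ : Circ) :
    1 - w * conj (ζ : ℂ) ∈ Complex.slitPlane := Or.inl (re_pos hw ζ)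

theorem continuous_Lg {w : ℂ} (hw : ‖w‖ < 1) : Continuous (Lg w) :=
  Continuous.clog (by fun_prop) (mem_slitPlane hw)

theorem integrable_Lg {w : ℂ} (hw : ‖w‖ < 1) (μ : Measure Circ) [IsFiniteMeasure μ] :
    Integrable (Lg w) μ :=
  (continuous_Lg hw).integrable_of_hasCompactSupport (HasCompactSupport.of_compactSpace _)

theorem Lg_zero (ζ : Circ) : Lg 0 ζ = 0 := by simp [Lg]

theorem re_Lg (w : ℂ) (ζ : Circ) : (Lg w ζ).re = Real.log (dist w (ζ : ℂ)) := by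
  rw [Lg, Complex.log_re, norm_one_sub]

theorem abs_im_Lg {w : ℂ} (hw : ‖w‖ < 1) (ζ : Circ) : |(Lg w ζ).im| ≤ π / 2 := by
  rw [Lg, Complex.log_im]
  exact Complex.abs_arg_le_pi_div_two_iff.2 (re_pos hw ζ).le

theorem dist_le_two {w : ℂ} (hw : ‖w‖ < 1) (ζ : Circ) : dist w (ζ : ℂ) ≤ 2 := by
  have := dist_le_norm_add_norm w (ζ : ℂ)
  rw [norm_circ] at this
  linarith

theorem dist_pos {w : ℂ} (hw : ‖w‖ < 1) (ζ : Circ) : 0 < dist w (ζ : ℂ) :=
  lt_of_lt_of_le (by linarith) (one_sub_norm_le_dist w ζ)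

/-- Crude bound on the logarithm of the distance to the circle. -/
theorem abs_log_dist {w : ℂ} (hw : ‖w‖ < 1) (ζ : Circ) :
    |Real.log (dist w (ζ : ℂ))| ≤ Real.log 2 - Real.log (1 - ‖w‖) := by
  have h2 := Real.log_nonneg (show (1 : ℝ) ≤ 2 by norm_num)
  have h1 : Real.log (1 - ‖w‖) ≤ 0 := Real.log_nonpos (by linarith) (by linarith [norm_nonneg w])
  rw [abs_le]
  constructor
  · linarith [Real.log_le_log (by linarith) (one_sub_norm_le_dist w ζ)]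
  · linarith [Real.log_le_log (dist_pos hw ζ) (dist_le_two hw ζ)]

theorem norm_Lg_le {w : ℂ} (hw : ‖w‖ < 1) (ζ : Circ) :
    ‖Lg w ζ‖ ≤ Real.log 2 - Real.log (1 - ‖w‖) + π / 2 := by
  refine (Complex.norm_le_abs_re_add_abs_im _).trans (add_le_add ?_ (abs_im_Lg hw ζ))
  rw [re_Lg]
  exact abs_log_dist hw ζ

theorem hasDerivAt_Lg {w : ℂ} (hw : ‖w‖ < 1) (ζ : Circ) :
    HasDerivAt (fun v => Lg v ζ) (-(1 / ((ζ : ℂ) - w))) w := by
  have h1 : HasDerivAt (fun v : ℂ => 1 - v * conj (ζ : ℂ)) (-conj (ζ : ℂ)) w := by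
    simpa using ((hasDerivAt_id w).mul_const (conj (ζ : ℂ))).const_sub 1
  refine (h1.clog (mem_slitPlane hw ζ)).congr_deriv ?_
  have hne : (ζ : ℂ) - w ≠ 0 := sub_ne_zero.2 fun h => by
    have := norm_circ ζ; rw [h] at this; linarith
  have hc : conj (ζ : ℂ) ≠ 0 := fun h => by
    have := mul_conj_circ ζ; rw [h, mul_zero] at this; exact zero_ne_one this
  rw [show 1 - w * conj (ζ : ℂ) = ((ζ : ℂ) - w) * conj (ζ : ℂ) by rw [sub_mul, mul_conj_circ]]
  field_simp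

end Vale.Agent.P142
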