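import Vale.Agent.P142.Schwarz

/-!
# P142: bounded boundary rotation gives a representation of the derivative
-/

open MeasureTheory Set Metric Filter
open scoped ENNReal NNReal Topology Real ComplexConjugate

noncomputable section

namespace Vale.Agent.P142

/-- Bounded boundary rotation in the sense of Paatero: `f' ≠ 0` on the disc and the integrals of
`|Re (1 + z f''/f')|` over the circles `|z| = r < 1` are bounded. -/
def HasBoundedBoundaryRotation (f : ℂ → ℂ) : Prop :=
  (∀ z ∈ ball (0 : ℂ) 1, deriv f z ≠ 0) ∧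
    ∃ k : ℝ, ∀ r ∈ Ioo (0 : ℝ) 1, ∫ θ in (0 : ℝ)..2 * π,
      |(1 + circleMap 0 r θ * deriv (deriv f) (circleMap 0 r θ) /
        deriv f (circleMap 0 r θ)).re| ≤ k

/-- Integral of the kernel against the signed measure `P - N`. -/
def Phi (P N : Measure Circ) (w : ℂ) : ℂ := (∫ ζ, Lg w ζ ∂P) - ∫ ζ, Lg w ζ ∂N

theorem Phi_zero (P N : Measure Circ) : Phi P N 0 = 0 := by simp [Phi, Lg_zero]

theorem continuous_inv_sub {w : ℂ} (hw : ‖w‖ < 1) :
    Continuous fun ζ : Circ => 1 / ((ζ : ℂ) - w) := by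
  refine continuous_const.div (by fun_prop) fun ζ h => ?_
  have := norm_circ ζ
  rw [sub_eq_zero.1 h] at this
  linarith

theorem hasDerivAt_integral_Lg {w : ℂ} (hw : ‖w‖ < 1) (μ : Measure Circ) [IsFiniteMeasure μ] :
    HasDerivAt (fun v => ∫ ζ, Lg v ζ ∂μ) (∫ ζ : Circ, -(1 / ((ζ : ℂ) - w)) ∂μ) w := by
  set δ : ℝ := (1 - ‖w‖) / 2 with hδ
  have hδ0 : 0 < δ := by rw [hδ]; linarith
  have hv : ∀ v ∈ ball w δ, ‖v‖ < 1 - δ := fun v hv => by
    rw [mem_ball, dist_eq_norm] at hv
    calc ‖v‖ ≤ ‖w‖ + ‖v - w‖ := norm_le_norm_add_norm_sub' v w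
      _ < ‖w‖ + δ := by linarith
      _ = 1 - δ := by rw [hδ]; ring
  refine (hasDerivAt_integral_of_dominated_loc_of_deriv_le (μ := μ) (F := fun v ζ => Lg v ζ)
    (F' := fun v (ζ : Circ) => -(1 / ((ζ : ℂ) - v))) (bound := fun _ => 1 / δ)
    (ball_mem_nhds w hδ0) ?_ (integrable_Lg hw μ) (continuous_inv_sub hw).neg.aestronglyMeasurable
    ?_ (integrable_const _) ?_).2
  · filter_upwards [ball_mem_nhds w hδ0] with v hv'
    exact (continuous_Lg (by linarith [hv v hv'])).aestronglyMeasurable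
  · refine Eventually.of_forall fun ζ v hv' => ?_
    rw [norm_neg, norm_div, norm_one, norm_sub_rev, ← dist_eq_norm]
    exact div_le_div_of_nonneg_left zero_le_one hδ0
      (le_trans (by linarith [hv v hv']) (one_sub_norm_le_dist v ζ))
  · exact Eventually.of_forall fun ζ v hv' => hasDerivAt_Lg (by linarith [hv v hv']) ζ

theorem hasDerivAt_Phi {w : ℂ} (hw : ‖w‖ < 1) (P N : Measure Circ) [IsFiniteMeasure P]
    [IsFiniteMeasure N] :
    HasDerivAt (Phi P N)
      (-((∫ ζ : Circ, 1 / ((ζ : ℂ) - w) ∂P) - ∫ ζ : Circ, 1 / ((ζ : ℂ) - w) ∂N)) w := by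
  refine ((hasDerivAt_integral_Lg hw P).sub (hasDerivAt_integral_Lg hw N)).congr_deriv ?_
  rw [integral_neg, integral_neg]
  ring

/-- The parametrisation of the circle. -/
def circPt (t : ℝ) : Circ := ⟨circleMap 0 1 t, circleMap_mem_sphere 0 zero_le_one t⟩

theorem continuous_circPt : Continuous circPt := (continuous_circleMap 0 1).subtype_mk _

/-- The measure on the circle with density `max q 0`. -/
def densMeasure (q : ℝ → ℝ) : Measure Circ :=
  ((volume.restrict (Ioc (0 : ℝ) (2 * π))).withDensity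
    fun t => ((q t).toNNReal : ℝ≥0∞)).map circPt

theorem integral_densMeasure {q : ℝ → ℝ} (hq : Continuous q) {g : Circ → ℂ} (hg : Continuous g) :
    ∫ ζ, g ζ ∂(densMeasure q) = ∫ t in (0 : ℝ)..2 * π, max (q t) 0 • g (circPt t) := by
  rw [densMeasure, integral_map continuous_circPt.measurable.aemeasurable hg.aestronglyMeasurable,
    integral_withDensity_eq_integral_smul hq.measurable.real_toNNReal,
    intervalIntegral.integral_of_le Real.two_pi_pos.le]
  refine integral_congr_ae (Eventually.of_forall fun t => ?_)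
  simp only [NNReal.smul_def, Real.coe_toNNReal']

theorem densMeasure_univ {q : ℝ → ℝ} (hq : Continuous q) :
    densMeasure q univ ≤ ENNReal.ofReal (∫ t in (0 : ℝ)..2 * π, |q t|) := by
  rw [densMeasure, Measure.map_apply continuous_circPt.measurable MeasurableSet.univ, preimage_univ,
    withDensity_apply _ MeasurableSet.univ, setLIntegral_univ,
    intervalIntegral.integral_of_le Real.two_pi_pos.le,
    ofReal_integral_eq_lintegral_ofReal ((hq.abs.integrableOn_Icc).mono_set Ioc_subset_Icc_self)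
      (Eventually.of_forall fun t => abs_nonneg (q t))]
  refine lintegral_mono fun t => ?_
  show ENNReal.ofReal (q t) ≤ ENNReal.ofReal |q t|
  exact ENNReal.ofReal_le_ofReal (le_abs_self _)

theorem isFiniteMeasure_densMeasure {q : ℝ → ℝ} (hq : Continuous q) :
    IsFiniteMeasure (densMeasure q) :=
  ⟨(densMeasure_univ hq).trans_lt ENNReal.ofReal_lt_top⟩

theorem integral_densMeasure_sub {q : ℝ → ℝ} (hq : Continuous q) {g : Circ → ℂ}
    (hg : Continuous g) :
    (∫ ζ, g ζ ∂(densMeasure fun t => -q t)) - ∫ ζ, g ζ ∂(densMeasure q) =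
      -∫ t in (0 : ℝ)..2 * π, q t • g (circPt t) := by
  rw [integral_densMeasure (q := fun t => -q t) hq.neg hg, integral_densMeasure hq hg,
    ← intervalIntegral.integral_sub, ← intervalIntegral.integral_neg]
  · refine intervalIntegral.integral_congr fun t _ => ?_
    simp only [← sub_smul, ← neg_smul]
    congr 1
    rcases le_total (q t) 0 with h | h
    · rw [max_eq_left (neg_nonneg.2 h), max_eq_right h, sub_zero]
    · rw [max_eq_right (neg_nonpos.2 h), max_eq_left h, zero_sub]
  · exact ((hq.neg.max continuous_const).smul (hg.comp continuous_circPt)).intervalIntegrable _ _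
  · exact ((hq.max continuous_const).smul (hg.comp continuous_circPt)).intervalIntegrable _ _

/-- The representation on the disc of radius `s < 1`. -/
theorem exists_rep_scaled {f : ℂ → ℂ} (hf : DifferentiableOn ℂ f (ball 0 1))
    (hne : ∀ z ∈ ball (0 : ℂ) 1, deriv f z ≠ 0) {k : ℝ}
    (hk : ∀ r ∈ Ioo (0 : ℝ) 1, ∫ θ in (0 : ℝ)..2 * π,
      |(1 + circleMap 0 r θ * deriv (deriv f) (circleMap 0 r θ) /
        deriv f (circleMap 0 r θ)).re| ≤ k)
    {s : ℝ} (hs : s ∈ Ioo (0 : ℝ) 1) :
    ∃ P N : Measure Circ, P univ ≤ ENNReal.ofReal (k / π) ∧ N univ ≤ ENNReal.ofReal (k / π) ∧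
      ∀ w, ‖w‖ < 1 → deriv f (s * w) = deriv f 0 * Complex.exp (Phi P N w) := by
  have hd1 : DifferentiableOn ℂ (deriv f) (ball 0 1) := hf.deriv isOpen_ball
  have hd2 : DifferentiableOn ℂ (deriv (deriv f)) (ball 0 1) := hd1.deriv isOpen_ball
  have hmem : ∀ v : ℂ, ‖v‖ ≤ 1 → (s : ℂ) * v ∈ ball (0 : ℂ) 1 := fun v hv => by
    rw [mem_ball_zero_iff, norm_mul, Complex.norm_real, Real.norm_eq_abs, abs_of_pos hs.1]
    calc s * ‖v‖ ≤ s * 1 := mul_le_mul_of_nonneg_left hv hs.1.le
      _ < 1 := by linarith [hs.2]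
  set h : ℂ → ℂ := fun v => 1 + (s * v) * deriv (deriv f) (s * v) / deriv f (s * v) with hh
  have hdh : ∀ v : ℂ, ‖v‖ ≤ 1 → DifferentiableAt ℂ h v := fun v hv => by
    have h1 := (hd1.differentiableAt (isOpen_ball.mem_nhds (hmem v hv)))
    have h2 := (hd2.differentiableAt (isOpen_ball.mem_nhds (hmem v hv)))
    have hsv : DifferentiableAt ℂ (fun v : ℂ => (s : ℂ) * v) v := by fun_prop
    exact (differentiableAt_const _).add
      ((hsv.mul (h2.comp v hsv)).div (h1.comp v hsv) (hne _ (hmem v hv)))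
  have hhc : DiffContOnCl ℂ h (ball 0 1) := by
    refine DifferentiableOn.diffContOnCl fun v hv => (hdh v ?_).differentiableWithinAt
    rwa [closure_ball (0 : ℂ) one_ne_zero, mem_closedBall_zero_iff] at hv
  have hcirc : ∀ t, ‖circleMap 0 1 t‖ ≤ 1 := fun t => by simp
  set q : ℝ → ℝ := fun t => (h (circleMap 0 1 t)).re / π with hq
  have hqc : Continuous q :=
    ((Complex.continuous_re.comp (continuous_iff_continuousAt.2 fun t =>
      ContinuousAt.comp (g := h) (hdh _ (hcirc t)).continuousAt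
        (continuous_circleMap 0 1).continuousAt))).div_const _
  have hmass : ∫ t in (0 : ℝ)..2 * π, |q t| ≤ k / π := by
    simp only [hq, abs_div, abs_of_pos Real.pi_pos, intervalIntegral.integral_div]
    refine div_le_div_of_nonneg_right (le_of_eq_of_le ?_ (hk s hs)) Real.pi_pos.le
    refine intervalIntegral.integral_congr fun t _ => ?_
    simp only [hh, circleMap_zero]
    simp
  have := isFiniteMeasure_densMeasure hqc
  have := isFiniteMeasure_densMeasure hqc.neg
  refine ⟨densMeasure fun t => -q t, densMeasure q, ?_, ?_, ?_⟩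
  · refine (densMeasure_univ hqc.neg).trans (ENNReal.ofReal_le_ofReal ?_)
    simpa only [Pi.neg_apply, abs_neg] using hmass
  · exact (densMeasure_univ hqc).trans (ENNReal.ofReal_le_ofReal hmass)
  set P := densMeasure fun t => -q t
  set N := densMeasure q
  have hDPhi : ∀ w : ℂ, ‖w‖ < 1 → HasDerivAt (Phi P N)
      (Real.circleAverage (fun u => ((2 * (h u).re : ℝ) : ℂ) / (u - w)) 0 1) w := fun w hw => by
    refine (hasDerivAt_Phi hw P N).congr_deriv ?_
    rw [integral_densMeasure_sub hqc (continuous_inv_sub hw), neg_neg, Real.circleAverage_def,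
      ← intervalIntegral.integral_smul]
    refine intervalIntegral.integral_congr fun t _ => ?_
    simp only [hq, circPt, Complex.real_smul]
    push_cast
    field_simp
  have hdd : ∀ w : ℂ, ‖w‖ < 1 → HasDerivAt (fun v => deriv f (s * v))
      (s * deriv (deriv f) (s * w)) w := fun w hw => by
    have h1 := (hd1.differentiableAt (isOpen_ball.mem_nhds (hmem w hw.le))).hasDerivAt
    have := h1.comp w ((hasDerivAt_id w).const_mul (s : ℂ))
    refine (this.congr_deriv ?_)
    ring
  have hDon : DifferentiableOn ℂ (deriv (Phi P N)) (ball 0 1) :=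
    DifferentiableOn.deriv (fun w hw =>
      (hDPhi w (by simpa using hw)).differentiableAt.differentiableWithinAt) isOpen_ball
  have hkey : ∀ w : ℂ, ‖w‖ < 1 → w ≠ 0 →
      deriv (Phi P N) w * deriv f (s * w) = s * deriv (deriv f) (s * w) := fun w hw hw0 => by
    rw [(hDPhi w hw).deriv]
    refine mul_left_cancel₀ hw0 ?_
    rw [← mul_assoc, schwarz_deriv hhc (by simp [hh]) hw]
    simp only [hh]
    field_simp [hne _ (hmem w hw.le)]
    ring
  have hkey0 : ∀ w : ℂ, ‖w‖ < 1 →
      deriv (Phi P N) w * deriv f (s * w) = s * deriv (deriv f) (s * w) := by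
    intro w hw
    rcases eq_or_ne w 0 with rfl | hw0
    · have hsv : ContinuousAt (fun v : ℂ => (s : ℂ) * v) 0 := by fun_prop
      have h0 : (s : ℂ) * 0 ∈ ball (0 : ℂ) 1 := hmem 0 (by simp)
      have hc1 : ContinuousAt (fun v => deriv (Phi P N) v * deriv f (s * v)) 0 :=
        ((hDon.differentiableAt (isOpen_ball.mem_nhds (by simp))).continuousAt).mul
          ((hd1.differentiableAt (isOpen_ball.mem_nhds h0)).continuousAt.comp hsv)
      have hc2 : ContinuousAt (fun v => (s : ℂ) * deriv (deriv f) (s * v)) 0 :=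
        continuousAt_const.mul
          ((hd2.differentiableAt (isOpen_ball.mem_nhds h0)).continuousAt.comp hsv)
      refine tendsto_nhds_unique (hc1.tendsto.mono_left nhdsWithin_le_nhds)
        (Tendsto.congr' ?_ (hc2.tendsto.mono_left (nhdsWithin_le_nhds (s := {(0 : ℂ)}ᶜ))))
      filter_upwards [mem_nhdsWithin_of_mem_nhds (isOpen_ball.mem_nhds
        (show (0 : ℂ) ∈ ball (0 : ℂ) 1 by simp)), self_mem_nhdsWithin] with v hv hv0
      exact (hkey v (by simpa using hv) hv0).symm
    · exact hkey w hw hw0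
  set E : ℂ → ℂ := fun v => deriv f (s * v) * Complex.exp (-Phi P N v) with hE
  have hE' : ∀ w : ℂ, ‖w‖ < 1 → HasDerivAt E 0 w := fun w hw => by
    have hP := hDPhi w hw
    rw [← hP.deriv] at hP
    refine ((hdd w hw).mul hP.neg.cexp).congr_deriv ?_
    rw [← hkey0 w hw]
    ring
  intro w hw
  have hconst : E w = E 0 := isOpen_ball.is_const_of_deriv_eq_zero
    (convex_ball (0 : ℂ) 1).isPreconnected
    (fun v hv => (hE' v (by simpa using hv)).differentiableAt.differentiableWithinAt)
    (fun v hv => (hE' v (by simpa using hv)).deriv) (by simpa using hw) (by simp)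
  simp only [hE, Phi_zero, mul_zero, neg_zero, Complex.exp_zero, mul_one] at hconst
  rw [← hconst, mul_assoc, ← Complex.exp_add, neg_add_cancel, Complex.exp_zero, mul_one]

/-- Bounded boundary rotation: `f' = f'(0) exp ∫ log (1 - w conj ζ) dσ` for a finite signed
measure `σ = P - N` on the circle. -/
theorem exists_rep {f : ℂ → ℂ} (hf : DifferentiableOn ℂ f (ball 0 1))
    (hV : HasBoundedBoundaryRotation f) :
    ∃ P N : FiniteMeasure Circ, ∀ w, ‖w‖ < 1 →
      deriv f w = deriv f 0 * Complex.exp (Phi P N w) := by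
  obtain ⟨hne, k, hk⟩ := hV
  set s : ℕ → ℝ := fun n => 1 - 1 / ((n : ℝ) + 2) with hs
  have hs01 : ∀ n, s n ∈ Ioo (0 : ℝ) 1 := fun n => by
    have h2 : (1 : ℝ) < n + 2 := by linarith [n.cast_nonneg (α := ℝ)]
    have : 1 / ((n : ℝ) + 2) < 1 := (div_lt_one (by linarith)).2 h2
    have : 0 < 1 / ((n : ℝ) + 2) := by positivity
    constructor <;> simp only [hs] <;> linarith
  choose P N hP hN hrep using fun n => exists_rep_scaled hf hne hk (hs01 n)
  have hfP : ∀ n, IsFiniteMeasure (P n) := fun n => ⟨(hP n).trans_lt ENNReal.ofReal_lt_top⟩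
  have hfN : ∀ n, IsFiniteMeasure (N n) := fun n => ⟨(hN n).trans_lt ENNReal.ofReal_lt_top⟩
  set C : ℝ≥0 := (k / π).toNNReal with hC
  set X : ℕ → FiniteMeasure Circ × FiniteMeasure Circ :=
    fun n => (⟨P n, hfP n⟩, ⟨N n, hfN n⟩) with hX
  set K : Set (FiniteMeasure Circ) := {μ | μ.mass ≤ C} with hK
  have hmem : ∀ n, X n ∈ K ×ˢ K := fun n => by
    constructor <;>
    · show FiniteMeasure.mass _ ≤ C
      refine ENNReal.coe_le_coe.1 ?_
      rw [FiniteMeasure.ennreal_mass]
      first
        | exact hP n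
        | exact hN n
  set U : Ultrafilter ℕ := Ultrafilter.of atTop
  obtain ⟨⟨P₀, N₀⟩, -, hlim⟩ :=
    (((isCompact_setOfPred_finiteMeasure_le_of_compactSpace Circ C).prod
      (isCompact_setOfPred_finiteMeasure_le_of_compactSpace Circ C))).ultrafilter_le_nhds'
      (U.map X) (Ultrafilter.mem_map.2 (univ_mem' hmem))
  refine ⟨P₀, N₀, fun w hw => ?_⟩
  have hlim' : Tendsto X U (𝓝 (P₀, N₀)) := hlim
  rw [nhds_prod_eq, tendsto_prod_iff'] at hlim'
  have hcl : ∀ (Y : ℕ → FiniteMeasure Circ) (Y₀ : FiniteMeasure Circ), Tendsto Y U (𝓝 Y₀) →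
      Tendsto (fun n => ∫ ζ, Lg w ζ ∂(Y n : Measure Circ)) U
        (𝓝 (∫ ζ, Lg w ζ ∂(Y₀ : Measure Circ))) := by
    intro Y Y₀ hY
    have hre : Continuous fun ζ => (Lg w ζ).re := Complex.continuous_re.comp (continuous_Lg hw)
    have him : Continuous fun ζ => (Lg w ζ).im := Complex.continuous_im.comp (continuous_Lg hw)
    have h1 := FiniteMeasure.tendsto_iff_forall_integral_tendsto.1 hY
      (BoundedContinuousFunction.mkOfCompact ⟨_, hre⟩)
    have h2 := FiniteMeasure.tendsto_iff_forall_integral_tendsto.1 hY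
      (BoundedContinuousFunction.mkOfCompact ⟨_, him⟩)
    simp only [BoundedContinuousFunction.mkOfCompact_apply, ContinuousMap.coe_mk] at h1 h2
    have hdec : ∀ μ : FiniteMeasure Circ, ∫ ζ, Lg w ζ ∂(μ : Measure Circ) =
        ((∫ ζ, (Lg w ζ).re ∂(μ : Measure Circ) : ℝ) : ℂ) +
          ((∫ ζ, (Lg w ζ).im ∂(μ : Measure Circ) : ℝ) : ℂ) * Complex.I :=
      fun μ => (integral_re_add_im (integrable_Lg hw (μ : Measure Circ))).symm
    simp only [hdec]
    exact ((Complex.continuous_ofReal.tendsto _).comp h1).add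
      (((Complex.continuous_ofReal.tendsto _).comp h2).mul_const Complex.I)
  have hPhi : Tendsto (fun n => deriv f 0 * Complex.exp (Phi (P n) (N n) w)) U
      (𝓝 (deriv f 0 * Complex.exp (Phi P₀ N₀ w))) :=
    ((Complex.continuous_exp.tendsto _).comp
      ((hcl _ _ hlim'.1).sub (hcl _ _ hlim'.2))).const_mul _
  have hs1 : Tendsto (fun n => ((s n : ℝ) : ℂ) * w) atTop (𝓝 w) := by
    have h0 : Tendsto (fun n : ℕ => 1 / ((n : ℝ) + 2)) atTop (𝓝 0) := by
      simpa [one_div, Function.comp_def] using tendsto_inv_atTop_zero.comp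
        (tendsto_natCast_atTop_atTop.atTop_add (tendsto_const_nhds (x := (2 : ℝ))))
    have h1 : Tendsto s atTop (𝓝 1) := by simpa [hs] using h0.const_sub 1
    simpa using ((Complex.continuous_ofReal.tendsto _).comp h1).mul_const w
  have hleft : Tendsto (fun n => deriv f ((s n : ℂ) * w)) U (𝓝 (deriv f w)) :=
    ((((hf.deriv isOpen_ball).differentiableAt
      (isOpen_ball.mem_nhds (by simpa using hw))).continuousAt.tendsto).comp hs1).mono_left
        (Ultrafilter.of_le atTop)
  exact tendsto_nhds_unique hleft (hPhi.congr fun n => (hrep n w hw).symm)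

end Vale.Agent.P142
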