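import Vale.Agent.P142.Kernel

/-!
# P142: Schwarz formula and the representation of the derivative on smaller discs
-/

open MeasureTheory Set Metric Filter
open scoped ENNReal NNReal Topology Real ComplexConjugate

noncomputable section

namespace Vale.Agent.P142

theorem norm_eq_one_of_mem {u : ℂ} (hu : u ∈ sphere (0 : ℂ) |(1 : ℝ)|) : ‖u‖ = 1 := by
  simpa using hu

/-- Schwarz formula for the real part. -/
theorem schwarz {h : ℂ → ℂ} (hh : DiffContOnCl ℂ h (ball 0 1)) {w : ℂ} (hw : ‖w‖ < 1) :
    Real.circleAverage (fun u => ((2 * (h u).re : ℝ) : ℂ) * (u / (u - w))) 0 1 =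
      h w + conj (h 0) := by
  have hh1 : DiffContOnCl ℂ h (ball 0 |(1 : ℝ)|) := by rwa [abs_one]
  have hcont : ContinuousOn h (closedBall (0 : ℂ) 1) := by
    rw [← closure_ball (0 : ℂ) one_ne_zero]; exact hh.continuousOn
  have hne : ∀ v ∈ closedBall (0 : ℂ) 1, 1 - conj w * v ≠ 0 := fun v hv h0 => by
    have : ‖conj w * v‖ < 1 := by
      rw [norm_mul, Complex.norm_conj]
      calc ‖w‖ * ‖v‖ ≤ ‖w‖ * 1 := mul_le_mul_of_nonneg_left (by simpa using hv) (norm_nonneg w)
        _ < 1 := by rwa [mul_one]
    rw [← sub_eq_zero.1 h0, norm_one] at this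
    exact lt_irrefl _ this
  have hH : DiffContOnCl ℂ (fun v => h v / (1 - conj w * v)) (ball 0 |(1 : ℝ)|) := by
    rw [abs_one]
    refine ⟨fun v hv => (hh.differentiableOn v hv).div (by fun_prop)
      (hne v (ball_subset_closedBall hv)), ?_⟩
    rw [closure_ball (0 : ℂ) one_ne_zero]
    exact hcont.div (by fun_prop) hne
  have h1 := hh1.circleAverage_smul_div (w := w) (by simpa using hw)
  have h2 := hH.circleAverage
  simp only [mul_zero, sub_zero, div_one] at h2
  have hHi : CircleIntegrable (fun v => h v / (1 - conj w * v)) 0 1 :=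
    ((hcont.div (by fun_prop) hne).mono sphere_subset_closedBall).circleIntegrable zero_le_one
  have h3 : Real.circleAverage (fun v => conj (h v / (1 - conj w * v))) 0 1 = conj (h 0) := by
    have := (Complex.conjCLE : ℂ →L[ℝ] ℂ).circleAverage_comp_comm hHi
    simpa [Function.comp_def, h2] using this
  have hsub : ∀ u ∈ sphere (0 : ℂ) |(1 : ℝ)|, u - w ≠ 0 := fun u hu h0 => by
    rw [sub_eq_zero.1 h0] at hu
    exact hw.ne (norm_eq_one_of_mem hu)
  have hI1 : CircleIntegrable (fun u => (u / (u - w)) • h u) 0 1 :=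
    ((continuousOn_id.div (by fun_prop) (fun u hu => hsub u (by simpa using hu))).smul
      (hcont.mono sphere_subset_closedBall)).circleIntegrable zero_le_one
  have hI2 : CircleIntegrable (fun v => conj (h v / (1 - conj w * v))) 0 1 :=
    (Complex.continuous_conj.comp_continuousOn
      ((hcont.div (by fun_prop) hne).mono sphere_subset_closedBall)).circleIntegrable zero_le_one
  simp only [sub_zero] at h1
  calc Real.circleAverage (fun u => ((2 * (h u).re : ℝ) : ℂ) * (u / (u - w))) 0 1
      = Real.circleAverage ((fun u => (u / (u - w)) • h u) +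
          fun v => conj (h v / (1 - conj w * v))) 0 1 := by
        refine Real.circleAverage_congr_sphere fun u hu => ?_
        have hu1 := norm_eq_one_of_mem hu
        have huu : u * conj u = 1 := by
          rw [Complex.mul_conj, Complex.normSq_eq_norm_sq, hu1]; simp
        have key : conj (h u / (1 - conj w * u)) = conj (h u) * (u / (u - w)) := by
          rw [map_div₀, map_sub, map_one, map_mul, Complex.conj_conj,
            show u - w = u * (1 - w * conj u) by linear_combination w * huu]
          have hu0 : u ≠ 0 := fun h0 => by simp [h0] at hu1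
          field_simp
        simp only [Pi.add_apply, key, smul_eq_mul]
        rw [Complex.ofReal_mul, Complex.ofReal_ofNat]
        have hre : h u + conj (h u) = 2 * ((h u).re : ℂ) := by apply Complex.ext <;> simp; ring
        linear_combination -(u / (u - w)) * hre
    _ = _ := by rw [Real.circleAverage_add hI1 hI2, h1, h3]

/-- The differentiated form. -/
theorem schwarz_deriv {h : ℂ → ℂ} (hh : DiffContOnCl ℂ h (ball 0 1)) (h0 : h 0 = 1) {w : ℂ}
    (hw : ‖w‖ < 1) :
    w * Real.circleAverage (fun u => ((2 * (h u).re : ℝ) : ℂ) / (u - w)) 0 1 = h w - 1 := by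
  have e1 := schwarz hh hw
  have e0 := schwarz hh (show ‖(0 : ℂ)‖ < 1 by simp)
  rw [h0, map_one] at e1 e0
  have hcont : ContinuousOn (fun u => ((2 * (h u).re : ℝ) : ℂ)) (sphere (0 : ℂ) 1) := by
    have hc : ContinuousOn h (closure (ball (0 : ℂ) 1)) := hh.continuousOn
    rw [closure_ball (0 : ℂ) one_ne_zero] at hc
    exact Complex.continuous_ofReal.comp_continuousOn (continuousOn_const.mul
      (Complex.continuous_re.comp_continuousOn (hc.mono sphere_subset_closedBall)))
  have hsub : ∀ v : ℂ, ‖v‖ < 1 → ∀ u ∈ sphere (0 : ℂ) 1, u - v ≠ 0 := fun v hv u hu h => by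
    rw [sub_eq_zero.1 h, mem_sphere_zero_iff_norm] at hu
    exact hv.ne hu
  have hI : ∀ v : ℂ, ‖v‖ < 1 →
      CircleIntegrable (fun u => ((2 * (h u).re : ℝ) : ℂ) * (u / (u - v))) 0 1 := fun v hv =>
    (hcont.mul (continuousOn_id.div (by fun_prop) (hsub v hv))).circleIntegrable zero_le_one
  have hsplit : Real.circleAverage (fun u => w • (((2 * (h u).re : ℝ) : ℂ) / (u - w))) 0 1 =
      Real.circleAverage (fun u => ((2 * (h u).re : ℝ) : ℂ) * (u / (u - w)) -
        ((2 * (h u).re : ℝ) : ℂ) * (u / (u - 0))) 0 1 := by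
    refine Real.circleAverage_congr_sphere fun u hu => ?_
    have hu' : u ∈ sphere (0 : ℂ) 1 := by simpa using hu
    have := hsub w hw u hu'
    have := hsub 0 (by simp) u hu'
    rw [sub_zero] at this ⊢
    simp only [smul_eq_mul]
    field_simp
    ring
  rw [Real.circleAverage_fun_sub (hI w hw) (hI 0 (by simp)), e1, e0, Real.circleAverage_fun_smul,
    smul_eq_mul] at hsplit
  rw [hsplit]
  ring

end Vale.Agent.P142
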